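import Vale.Agent.P217.Newton.CaseB

/-!
P217, Newton half of the orbit block.
-/

noncomputable section

namespace Vale.Agent.P217.Newton

variable {p n : ℕ} [Fact p.Prime]

/-- Block F4b (NEWTON), from the facts on the universal law and its `p`-series. -/
theorem newton (hF : FactsStatement p n) : NewtonStatement p n := by
  intro F hFu e he h hh hhn P _ hle hu K i1 i2 hult hac hchar G
  obtain ⟨Q, hQ⟩ := exists_pt hFu he hF hle hu hchar hhn G
  have hE : Q.env.Bounded G.rho := bounded hFu he hF hle hu hchar hhn hQ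
  obtain ⟨T, hT⟩ := exists_tower hFu he hF hchar G Q hQ
  refine ⟨T, fun τ hτ => ?_⟩
  have := hchar
  rcases extra_position T Q hQ hchar hF hFu hE with ⟨k, hk⟩ | ⟨k, i, hki⟩
  · obtain ⟨μ, K0, N, H, -⟩ := exists_big Q hE k 0
    exact slots_of_radius hQ H hτ hT hk
  · obtain ⟨μ, K0, N, H, hiN⟩ := exists_big Q hE k i
    exact slots_between hQ H hτ (hki N hiN).1 (hki N hiN).2

end Vale.Agent.P217.Newton
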