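import Mathlib

/-!
P217, Newton half of the orbit block: the norm envelope of a linearised polynomial
`L z = Σ_{h ≤ i ≤ n} a_i z^(p^i)` and of its iterates.
-/

open Finset

noncomputable section

namespace Vale.Agent.P217.Newton

/-- The coefficients of a linearised polynomial with small lower coefficients. -/
structure Env (K : Type) [NormedField K] where
  p : ℕ
  h : ℕ
  n : ℕ
  a : ℕ → K
  hp : 2 ≤ p
  hh : 1 ≤ h
  hhn : h < n
  a_n : a n = 1
  a_h : a h ≠ 0
  a_lt : ∀ i, h ≤ i → i < n → ‖a i‖ < 1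

variable {K : Type} [NormedField K] [IsUltrametricDist K] (E : Env K)

theorem norm_sum_lt {ι : Type*} (s : Finset ι) (f : ι → K) {C : ℝ} (hC : 0 < C)
    (hf : ∀ i ∈ s, ‖f i‖ < C) : ‖∑ i ∈ s, f i‖ < C := by
  rcases s.eq_empty_or_nonempty with rfl | hs
  · simpa using hC
  · obtain ⟨i, hi, hle⟩ := IsUltrametricDist.exists_norm_finsetSum_le_of_nonempty hs f
    exact hle.trans_lt (hf i hi)

theorem norm_sum_le {ι : Type*} (s : Finset ι) (f : ι → K) {C : ℝ} (hC : 0 ≤ C)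
    (hf : ∀ i ∈ s, ‖f i‖ ≤ C) : ‖∑ i ∈ s, f i‖ ≤ C :=
  IsUltrametricDist.norm_sum_le_of_forall_le_of_nonneg hC hf

/-- A dominant term decides the norm of a sum. -/
theorem norm_sum_eq_of_dominant {ι : Type*} [DecidableEq ι] {s : Finset ι} {f : ι → K} {i₀ : ι}
    (hi₀ : i₀ ∈ s) (hf : ∀ i ∈ s, i ≠ i₀ → ‖f i‖ < ‖f i₀‖) :
    ‖∑ i ∈ s, f i‖ = ‖f i₀‖ := by
  rcases (norm_nonneg (f i₀)).lt_or_eq with hpos | h0
  · rw [← add_sum_erase s f hi₀]
    have hrest : ‖∑ i ∈ s.erase i₀, f i‖ < ‖f i₀‖ :=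
      norm_sum_lt _ _ hpos fun i hi => hf i (mem_of_mem_erase hi) (ne_of_mem_erase hi)
    rw [IsUltrametricDist.norm_add_eq_max_of_norm_ne_norm hrest.ne', max_eq_left hrest.le]
  · have hs : s = {i₀} := by
      refine eq_singleton_iff_unique_mem.2 ⟨hi₀, fun i hi => ?_⟩
      by_contra hne
      exact absurd ((hf i hi hne).trans_eq h0.symm) (not_lt.2 (norm_nonneg _))
    rw [hs, sum_singleton]

namespace Env

/-- The exponents. -/
def S : Finset ℕ := Icc E.h E.n

theorem mem_S {i : ℕ} : i ∈ E.S ↔ E.h ≤ i ∧ i ≤ E.n := mem_Icc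

theorem n_mem : E.n ∈ E.S := E.mem_S.2 ⟨E.hhn.le, le_rfl⟩

theorem h_mem : E.h ∈ E.S := E.mem_S.2 ⟨le_rfl, E.hhn.le⟩

theorem S_nonempty : E.S.Nonempty := ⟨E.n, E.n_mem⟩

/-- The norm of a term. -/
def W (B : ℝ) (i : ℕ) : ℝ := ‖E.a i‖ * B ^ E.p ^ i

/-- The envelope. -/
def mx (B : ℝ) : ℝ := E.S.sup' E.S_nonempty (E.W B)

/-- The dominant exponents. -/
def top (B : ℝ) : Finset ℕ := E.S.filter fun i => E.W B i = E.mx B

theorem W_le_mx (B : ℝ) {i : ℕ} (hi : i ∈ E.S) : E.W B i ≤ E.mx B := le_sup' (E.W B) hi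

theorem top_nonempty (B : ℝ) : (E.top B).Nonempty := by
  obtain ⟨i, hi, h⟩ := exists_mem_eq_sup' E.S_nonempty (E.W B)
  exact ⟨i, mem_filter.2 ⟨hi, h.symm⟩⟩

/-- The largest dominant exponent. -/
def imax (B : ℝ) : ℕ := (E.top B).max' (E.top_nonempty B)

/-- The least dominant exponent. -/
def imin (B : ℝ) : ℕ := (E.top B).min' (E.top_nonempty B)

theorem imax_mem_top (B : ℝ) : E.imax B ∈ E.top B := max'_mem _ _

theorem imin_mem_top (B : ℝ) : E.imin B ∈ E.top B := min'_mem _ _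

theorem imax_mem (B : ℝ) : E.imax B ∈ E.S := (mem_filter.1 (E.imax_mem_top B)).1

theorem imin_mem (B : ℝ) : E.imin B ∈ E.S := (mem_filter.1 (E.imin_mem_top B)).1

theorem imin_le_imax (B : ℝ) : E.imin B ≤ E.imax B := min'_le _ _ (E.imax_mem_top B)

theorem W_imax (B : ℝ) : E.W B (E.imax B) = E.mx B := (mem_filter.1 (E.imax_mem_top B)).2

theorem W_lt_of_not_between {B : ℝ} {i : ℕ} (hi : i ∈ E.S)
    (h : E.imax B < i ∨ i < E.imin B) : E.W B i < E.mx B := by
  refine lt_of_le_of_ne (E.W_le_mx B hi) fun he => ?_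
  have hit : i ∈ E.top B := mem_filter.2 ⟨hi, he⟩
  rcases h with h | h
  · exact absurd (le_max' _ i hit) (not_le.2 h)
  · exact absurd (min'_le _ i hit) (not_le.2 h)

theorem mx_pos {B : ℝ} (hB : 0 < B) : 0 < E.mx B := by
  refine lt_of_lt_of_le ?_ (E.W_le_mx B E.n_mem)
  rw [W, E.a_n, norm_one, one_mul]
  exact pow_pos hB _

theorem pow_le_mx (B : ℝ) : B ^ E.p ^ E.n ≤ E.mx B := by
  have := E.W_le_mx B E.n_mem
  rwa [W, E.a_n, norm_one, one_mul] at this

theorem norm_a_pos_of_top {B : ℝ} (hB : 0 < B) {i : ℕ} (hi : i ∈ E.top B) : 0 < ‖E.a i‖ := by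
  have h := (mem_filter.1 hi).2
  rcases (norm_nonneg (E.a i)).lt_or_eq with h0 | h0
  · exact h0
  · have := E.mx_pos hB
    rw [← h, W, ← h0, zero_mul] at this
    exact absurd this (lt_irrefl 0)

theorem one_lt_p : 1 < E.p := E.hp

theorem norm_a_le {i : ℕ} (hi : i ∈ E.S) : ‖E.a i‖ ≤ 1 := by
  obtain ⟨h1, h2⟩ := E.mem_S.1 hi
  rcases h2.lt_or_eq with h2 | rfl
  · exact (E.a_lt i h1 h2).le
  · rw [E.a_n, norm_one]

theorem p_le_pow {i : ℕ} (hi : i ∈ E.S) : E.p ≤ E.p ^ i :=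
  Nat.le_self_pow (by have := (E.mem_S.1 hi).1; have := E.hh; omega) _

theorem mx_lt_self {B : ℝ} (hB : 0 < B) (hB1 : B < 1) : E.mx B < B := by
  refine (sup'_lt_iff E.S_nonempty).2 fun i hi => ?_
  have h2 : 2 ≤ E.p ^ i := E.hp.trans (E.p_le_pow hi)
  calc E.W B i ≤ 1 * B ^ E.p ^ i :=
        mul_le_mul_of_nonneg_right (E.norm_a_le hi) (pow_nonneg hB.le _)
    _ < B := by
      rw [one_mul]
      calc B ^ E.p ^ i ≤ B ^ 2 := pow_le_pow_of_le_one hB.le hB1.le h2
        _ < B := by nlinarith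

theorem mx_mono {B B' : ℝ} (hB' : 0 ≤ B') (h : B' ≤ B) : E.mx B' ≤ E.mx B :=
  sup'_le _ _ fun _ hi => (mul_le_mul_of_nonneg_left (pow_le_pow_left₀ hB' h _) (norm_nonneg _)).trans
    (E.W_le_mx B hi)

theorem mx_lt_mx {B B' : ℝ} (hB' : 0 < B') (h : B' < B) : E.mx B' < E.mx B := by
  have hi := E.imax_mem_top B'
  rw [← E.W_imax B']
  refine lt_of_lt_of_le ?_ (E.W_le_mx B (E.imax_mem B'))
  exact mul_lt_mul_of_pos_left (pow_lt_pow_left₀ h hB'.le (pow_pos (by have := E.hp; omega) _).ne')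
    (E.norm_a_pos_of_top hB' hi)

/-- A smaller argument has smaller dominant exponents. -/
theorem imax_le_imin {B B' : ℝ} (hB' : 0 < B') (h : B' < B) : E.imax B' ≤ E.imin B := by
  by_contra hc
  rw [not_le] at hc
  set i := E.imin B
  set i' := E.imax B'
  have hBpos : 0 < B := hB'.trans h
  have h1 : E.W B' i ≤ E.W B' i' := (E.W_le_mx B' (E.imin_mem B)).trans_eq (E.W_imax B').symm
  have h2 : E.W B i' ≤ E.W B i :=
    (E.W_le_mx B (E.imax_mem B')).trans_eq (mem_filter.1 (E.imin_mem_top B)).2.symm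
  have hP : E.p ^ i < E.p ^ i' := Nat.pow_lt_pow_right E.one_lt_p hc
  obtain ⟨d, hd⟩ := Nat.exists_eq_add_of_lt hP
  have hai : 0 < ‖E.a i‖ := E.norm_a_pos_of_top hBpos (E.imin_mem_top B)
  have hai' : 0 < ‖E.a i'‖ := E.norm_a_pos_of_top hB' (E.imax_mem_top B')
  rw [W, W, hd, add_assoc, pow_add, ← mul_assoc, mul_right_comm] at h1
  rw [W, W, hd, add_assoc, pow_add, ← mul_assoc, mul_right_comm] at h2
  have h1' : ‖E.a i‖ ≤ ‖E.a i'‖ * B' ^ (d + 1) :=
    le_of_mul_le_mul_right h1 (pow_pos hB' _)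
  have h2' : ‖E.a i'‖ * B ^ (d + 1) ≤ ‖E.a i‖ :=
    le_of_mul_le_mul_right h2 (pow_pos hBpos _)
  have h3 : ‖E.a i'‖ * B' ^ (d + 1) < ‖E.a i'‖ * B ^ (d + 1) :=
    mul_lt_mul_of_pos_left (pow_lt_pow_left₀ h hB'.le (Nat.succ_ne_zero d)) hai'
  linarith

theorem imax_le_imax {B B' : ℝ} (hB' : 0 < B') (h : B' ≤ B) : E.imax B' ≤ E.imax B := by
  rcases h.lt_or_eq with h | rfl
  · exact (E.imax_le_imin hB' h).trans (E.imin_le_imax B)
  · rfl

/-- If one exponent dominates strictly, it is the only dominant one. -/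
theorem single_top {B : ℝ} {i₀ : ℕ} (hi₀ : i₀ ∈ E.S)
    (h : ∀ i ∈ E.S, i ≠ i₀ → E.W B i < E.W B i₀) :
    E.imax B = i₀ ∧ E.imin B = i₀ ∧ E.mx B = E.W B i₀ := by
  have hmx : E.mx B = E.W B i₀ := by
    refine le_antisymm (sup'_le _ _ fun i hi => ?_) (E.W_le_mx B hi₀)
    by_cases hii : i = i₀
    · rw [hii]
    · exact (h i hi hii).le
  have key : ∀ i ∈ E.top B, i = i₀ := by
    intro i hi
    by_contra hne
    exact (h i (mem_filter.1 hi).1 hne).ne ((mem_filter.1 hi).2.trans hmx)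
  exact ⟨key _ (E.imax_mem_top B), key _ (E.imin_mem_top B), hmx⟩

/-- The linearised polynomial. -/
def L (z : K) : K := ∑ i ∈ E.S, E.a i * z ^ E.p ^ i

theorem norm_L_le {B : ℝ} {z : K} (hz : ‖z‖ ≤ B) : ‖E.L z‖ ≤ E.mx B :=
  norm_sum_le _ _ (le_trans (mul_nonneg (norm_nonneg _) (pow_nonneg ((norm_nonneg z).trans hz) _))
    (E.W_le_mx B E.n_mem)) fun i hi => by
    rw [norm_mul, norm_pow]
    exact (mul_le_mul_of_nonneg_left (pow_le_pow_left₀ (norm_nonneg _) hz _) (norm_nonneg _)).trans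
      (E.W_le_mx B hi)

theorem norm_L_lt {B : ℝ} {z : K} (hB : 0 < B) (hz : ‖z‖ < B) : ‖E.L z‖ < E.mx B :=
  norm_sum_lt _ _ (E.mx_pos hB) fun i hi => by
    rw [norm_mul, norm_pow]
    rcases (norm_nonneg (E.a i)).lt_or_eq with h0 | h0
    · exact lt_of_lt_of_le (mul_lt_mul_of_pos_left (pow_lt_pow_left₀ hz (norm_nonneg _)
        (pow_pos (by have := E.hp; omega) _).ne') h0) (E.W_le_mx B hi)
    · rw [← h0, zero_mul]; exact E.mx_pos hB

/-- The iterates of the envelope. -/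
def mxs (B : ℝ) (j : ℕ) : ℝ := E.mx^[j] B

theorem mxs_zero (B : ℝ) : E.mxs B 0 = B := rfl

theorem mxs_succ (B : ℝ) (j : ℕ) : E.mxs B (j + 1) = E.mx (E.mxs B j) :=
  Function.iterate_succ_apply' _ _ _

theorem mxs_succ' (B : ℝ) (j : ℕ) : E.mxs B (j + 1) = E.mxs (E.mx B) j :=
  Function.iterate_succ_apply _ _ _

theorem mxs_add (B : ℝ) (i j : ℕ) : E.mxs B (i + j) = E.mxs (E.mxs B i) j := by
  rw [mxs, mxs, mxs, add_comm, Function.iterate_add_apply]

theorem mxs_pos {B : ℝ} (hB : 0 < B) : ∀ j, 0 < E.mxs B j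
  | 0 => hB
  | j + 1 => by rw [mxs_succ]; exact E.mx_pos (mxs_pos hB j)

theorem mxs_lt_one {B : ℝ} (hB : 0 < B) (hB1 : B < 1) : ∀ j, E.mxs B j < 1
  | 0 => hB1
  | j + 1 => by
    rw [mxs_succ]
    exact (E.mx_lt_self (E.mxs_pos hB j) (mxs_lt_one hB hB1 j)).trans (mxs_lt_one hB hB1 j)

theorem mxs_succ_lt {B : ℝ} (hB : 0 < B) (hB1 : B < 1) (j : ℕ) : E.mxs B (j + 1) < E.mxs B j := by
  rw [mxs_succ]
  exact E.mx_lt_self (E.mxs_pos hB j) (E.mxs_lt_one hB hB1 j)

theorem mxs_antitone {B : ℝ} (hB : 0 < B) (hB1 : B < 1) : Antitone (E.mxs B) :=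
  antitone_nat_of_succ_le fun j => (E.mxs_succ_lt hB hB1 j).le

theorem mxs_lt_mxs {B B' : ℝ} (hB' : 0 < B') (h : B' < B) : ∀ j, E.mxs B' j < E.mxs B j
  | 0 => h
  | j + 1 => by
    rw [mxs_succ, mxs_succ]
    exact E.mx_lt_mx (E.mxs_pos hB' j) (mxs_lt_mxs hB' h j)

theorem mxs_mono {B B' : ℝ} (hB' : 0 < B') (h : B' ≤ B) (j : ℕ) : E.mxs B' j ≤ E.mxs B j := by
  rcases h.lt_or_eq with h | rfl
  · exact (E.mxs_lt_mxs hB' h j).le
  · rfl

/-- The sum of the largest dominant exponents along the iteration. -/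
def emax (B : ℝ) (m : ℕ) : ℕ := ∑ j ∈ range m, E.imax (E.mxs B j)

/-- The sum of the least dominant exponents along the iteration. -/
def emin (B : ℝ) (m : ℕ) : ℕ := ∑ j ∈ range m, E.imin (E.mxs B j)

theorem emin_le_emax (B : ℝ) (m : ℕ) : E.emin B m ≤ E.emax B m :=
  sum_le_sum fun _ _ => E.imin_le_imax _

theorem emax_le (B : ℝ) (m : ℕ) : E.emax B m ≤ E.n * m := by
  refine (sum_le_card_nsmul _ _ E.n fun j _ => (E.mem_S.1 (E.imax_mem _)).2).trans ?_
  simp [mul_comm]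

theorem le_emin (B : ℝ) (m : ℕ) : E.h * m ≤ E.emin B m := by
  refine le_trans ?_ (card_nsmul_le_sum _ _ E.h fun j _ => (E.mem_S.1 (E.imin_mem _)).1)
  simp [mul_comm]

/-- Telescoping: the dominant exponents of an iterate fill a short interval. -/
theorem emax_sub_emin {B : ℝ} (hB : 0 < B) (hB1 : B < 1) (m : ℕ) :
    E.emax B m + E.h ≤ E.emin B m + E.n := by
  suffices key : ∀ m, E.emax B (m + 1) + E.imin (E.mxs B m) ≤
      E.emin B (m + 1) + E.imax (E.mxs B 0) by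
    rcases m with _ | m
    · simp only [emax, emin, range_zero, sum_empty]
      have := E.hhn
      omega
    · have := key m
      have h1 := (E.mem_S.1 (E.imin_mem (E.mxs B m))).1
      have h2 := (E.mem_S.1 (E.imax_mem (E.mxs B 0))).2
      omega
  intro m
  induction m with
  | zero => simp [emax, emin, add_comm]
  | succ m ih =>
    simp only [emax, emin, sum_range_succ _ (m + 1)] at ih ⊢
    have h3 := E.imax_le_imin (E.mxs_pos hB (m + 1)) (E.mxs_succ_lt hB hB1 m)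
    omega

/-- The coefficients of the iterates of `L`. -/
def C : ℕ → ℕ → K
  | 0, e => if e = 0 then 1 else 0
  | m + 1, e => ∑ i ∈ E.S, if i ≤ e then E.a i * C m (e - i) ^ E.p ^ i else 0

theorem W_succ_le {m i e : ℕ} (he : i ≤ e) {B : ℝ}
    (h : ‖E.C m (e - i)‖ * B ^ E.p ^ (e - i) ≤ E.mxs B m) (hB : 0 ≤ B) :
    ‖E.a i * E.C m (e - i) ^ E.p ^ i‖ * B ^ E.p ^ e ≤ E.W (E.mxs B m) i := by
  have hpe : E.p ^ e = E.p ^ (e - i) * E.p ^ i := by rw [← pow_add, Nat.sub_add_cancel he]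
  rw [norm_mul, norm_pow, hpe, pow_mul, mul_assoc, ← mul_pow]
  exact mul_le_mul_of_nonneg_left
    (pow_le_pow_left₀ (mul_nonneg (norm_nonneg _) (pow_nonneg hB _)) h _) (norm_nonneg _)

theorem W_succ_lt {m i e : ℕ} (he : i ≤ e) {B : ℝ}
    (h : ‖E.C m (e - i)‖ * B ^ E.p ^ (e - i) < E.mxs B m) (hB : 0 ≤ B) :
    ‖E.a i * E.C m (e - i) ^ E.p ^ i‖ * B ^ E.p ^ e < E.W (E.mxs B m) i ∨
      ‖E.a i * E.C m (e - i) ^ E.p ^ i‖ * B ^ E.p ^ e = 0 := by
  rcases (norm_nonneg (E.a i)).lt_or_eq with h0 | h0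
  · left
    have hpe : E.p ^ e = E.p ^ (e - i) * E.p ^ i := by rw [← pow_add, Nat.sub_add_cancel he]
    rw [norm_mul, norm_pow, hpe, pow_mul, mul_assoc, ← mul_pow]
    exact mul_lt_mul_of_pos_left (pow_lt_pow_left₀ h (mul_nonneg (norm_nonneg _) (pow_nonneg hB _))
      (pow_pos (by have := E.hp; omega) _).ne') h0
  · right
    rw [norm_mul, ← h0, zero_mul, zero_mul]

/-- Size of the coefficients of the iterates. -/
theorem C_facts {B : ℝ} (hB : 0 < B) : ∀ m,
    (∀ e, ‖E.C m e‖ * B ^ E.p ^ e ≤ E.mxs B m) ∧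
    (∀ e, E.emax B m < e ∨ e < E.emin B m → ‖E.C m e‖ * B ^ E.p ^ e < E.mxs B m) ∧
    ‖E.C m (E.emax B m)‖ * B ^ E.p ^ E.emax B m = E.mxs B m
  | 0 => by
    refine ⟨fun e => ?_, fun e he => ?_, by simp [C, emax, mxs_zero]⟩
    · rcases eq_or_ne e 0 with rfl | he
      · simp [C, mxs_zero]
      · simp [C, he, hB.le, mxs_zero]
    · simp only [emax, emin, range_zero, sum_empty, not_lt_zero, or_false] at he
      simpa [C, he.ne', mxs_zero] using hB
  | m + 1 => by
    obtain ⟨hle, hlt, heq⟩ := C_facts hB m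
    set B' := E.mxs B m
    have hB' : 0 < B' := E.mxs_pos hB m
    have hmx : E.mxs B (m + 1) = E.mx B' := E.mxs_succ B m
    have hpos : ∀ e, (0 : ℝ) < B ^ E.p ^ e := fun e => pow_pos hB _
    set g : ℕ → ℕ → K := fun e i => if i ≤ e then E.a i * E.C m (e - i) ^ E.p ^ i else 0 with hg
    have hC : ∀ e, E.C (m + 1) e = ∑ i ∈ E.S, g e i := fun e => rfl
    have h1 : ∀ e, ∀ i ∈ E.S, ‖g e i‖ * B ^ E.p ^ e ≤ E.mx B' := by
      intro e i hi
      simp only [hg]
      split_ifs with hie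
      · exact (E.W_succ_le hie (hle _) hB.le).trans (E.W_le_mx B' hi)
      · rw [norm_zero, zero_mul]; exact (E.mx_pos hB').le
    have h2 : ∀ e, ∀ i ∈ E.S,
        (E.imax B' < i ∨ i < E.imin B' ∨ E.emax B m + i < e ∨ e < E.emin B m + i) →
        ‖g e i‖ * B ^ E.p ^ e < E.mx B' := by
      intro e i hi hcase
      simp only [hg]
      split_ifs with hie
      · rcases hcase with hc | hc | hc | hc
        · exact lt_of_le_of_lt (E.W_succ_le hie (hle _) hB.le)
            (E.W_lt_of_not_between hi (Or.inl hc))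
        · exact lt_of_le_of_lt (E.W_succ_le hie (hle _) hB.le)
            (E.W_lt_of_not_between hi (Or.inr hc))
        all_goals
          rcases E.W_succ_lt hie (hlt (e - i) (by omega)) hB.le with h | h
          · exact h.trans_le (E.W_le_mx B' hi)
          · rw [h]; exact E.mx_pos hB'
      · rw [norm_zero, zero_mul]; exact E.mx_pos hB'
    have hsum : ∀ e (c : ℝ), 0 < c → (∀ i ∈ E.S, ‖g e i‖ * B ^ E.p ^ e < c) →
        ‖E.C (m + 1) e‖ * B ^ E.p ^ e < c := by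
      intro e c hc hi
      rw [hC, ← lt_div_iff₀ (hpos e)]
      exact norm_sum_lt _ _ (div_pos hc (hpos e)) fun i hiS => (lt_div_iff₀ (hpos e)).2 (hi i hiS)
    refine ⟨fun e => ?_, fun e he => ?_, ?_⟩
    · rw [hmx, hC, ← le_div_iff₀ (hpos e)]
      exact norm_sum_le _ _ (div_nonneg (E.mx_pos hB').le (hpos e).le)
        fun i hi => (le_div_iff₀ (hpos e)).2 (h1 e i hi)
    · rw [hmx]
      refine hsum e _ (E.mx_pos hB') fun i hi => h2 e i hi ?_
      simp only [emax, emin, sum_range_succ] at he ⊢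
      have e1 : E.imax (E.mxs B m) = E.imax B' := rfl
      have e2 : E.imin (E.mxs B m) = E.imin B' := rfl
      omega
    · have he : E.emax B (m + 1) = E.emax B m + E.imax B' := by
        simp [emax, B', sum_range_succ]
      set e := E.emax B (m + 1)
      have hmain : ‖g e (E.imax B')‖ * B ^ E.p ^ e = E.mx B' := by
        simp only [hg, if_pos (show E.imax B' ≤ e by omega)]
        rw [show e - E.imax B' = E.emax B m by omega, he, norm_mul, norm_pow, pow_add E.p,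
          pow_mul, mul_assoc, ← mul_pow, heq]
        exact E.W_imax B'
      rw [hmx, hC, norm_sum_eq_of_dominant (E.imax_mem B') fun i hi hne => ?_, hmain]
      refine lt_of_mul_lt_mul_right ?_ (hpos e).le
      rw [hmain]
      refine h2 e i hi ?_
      omega

theorem C_eq_zero : ∀ m e, E.n * m < e → E.C m e = 0
  | 0, e, he => by simp [C, show e ≠ 0 by omega]
  | m + 1, e, he => by
    refine sum_eq_zero fun i hi => ?_
    split_ifs with hie
    · have := (E.mem_S.1 hi).2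
      rw [C_eq_zero m (e - i) (by rw [mul_add, mul_one] at he; omega),
        zero_pow (pow_pos (by have := E.hp; omega) _).ne', mul_zero]
    · rfl

/-- The iterates of `L` are linearised polynomials. -/
theorem iterate_L [Fact E.p.Prime] [CharP K E.p] (z : K) :
    ∀ m, E.L^[m] z = ∑ e ∈ range (E.n * m + 1), E.C m e * z ^ E.p ^ e
  | 0 => by simp [C]
  | m + 1 => by
    rw [Function.iterate_succ_apply', iterate_L z m, L]
    have key : ∀ i ∈ E.S, E.a i * (∑ e ∈ range (E.n * m + 1), E.C m e * z ^ E.p ^ e) ^ E.p ^ i =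
        ∑ e ∈ range (E.n * (m + 1) + 1),
          (if i ≤ e then E.a i * E.C m (e - i) ^ E.p ^ i else 0) * z ^ E.p ^ e := by
      intro i hi
      rw [sum_pow_char_pow, mul_sum]
      rw [← sum_filter_of_ne (p := fun e => i ≤ e) (s := range (E.n * (m + 1) + 1))
        fun e _ hne => by by_contra hc; exact hne (by rw [if_neg hc, zero_mul])]
      refine sum_bij_ne_zero (fun e _ _ => e + i) ?_ (fun a _ _ b _ _ hab => by omega) ?_ ?_
      · intro e he _
        have := (E.mem_S.1 hi).2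
        simp only [mem_filter, mem_range] at he ⊢
        rw [mul_add, mul_one]
        omega
      · intro e he hne
        simp only [mem_filter, mem_range] at he
        have h0 : E.C m (e - i) ≠ 0 := by
          intro h0
          apply hne
          rw [if_pos he.2, h0, zero_pow (pow_pos (by have := E.hp; omega) _).ne', mul_zero,
            zero_mul]
        have hlt : e - i ≤ E.n * m := by
          by_contra hc
          exact h0 (E.C_eq_zero m _ (by omega))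
        refine ⟨e - i, mem_range.2 (by omega), ?_, by omega⟩
        have hpe : E.p ^ e = E.p ^ (e - i) * E.p ^ i := by rw [← pow_add, Nat.sub_add_cancel he.2]
        rw [if_pos he.2, hpe, pow_mul, mul_assoc, ← mul_pow] at hne
        exact hne
      · intro e _ _
        rw [if_pos (Nat.le_add_left i e), Nat.add_sub_cancel, mul_pow, ← pow_mul, ← pow_add,
          mul_assoc]
    rw [sum_congr rfl key, sum_comm]
    exact sum_congr rfl fun e _ => by rw [C, sum_mul]

end Env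

end Vale.Agent.P217.Newton
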