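import Vale.Agent.P217.SpecOrbit
import Vale.Agent.P217.Newton.Envelope

/-!
P217, Newton half: constants of `F_{p^n}` at a point, and separation of exponents.
-/

open Finset

noncomputable section

namespace Vale.Agent.P217.Newton

variable {p n : ℕ} [Fact p.Prime] {K : Type}

section Hom

variable [CommRing K] [CharP K p]

theorem constantCoeff_ker (x : LT p n →+* K) :
    RingHom.ker (WittVector.constantCoeff : WittVector p (Res p n) →+* Res p n) ≤
      RingHom.ker (x.comp MvPowerSeries.C) := by
  intro w hw
  rw [RingHom.mem_ker] at hw ⊢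
  have hmem : w ∈ Ideal.span {(p : WittVector p (Res p n))} :=
    (WittVector.mem_span_p_iff_coeff_zero_eq_zero w).2 hw
  obtain ⟨u, rfl⟩ := Ideal.mem_span_singleton.1 hmem
  rw [map_mul, map_natCast, CharP.cast_eq_zero, zero_mul]

theorem constantCoeff_surjective :
    Function.Surjective (WittVector.constantCoeff : WittVector p (Res p n) →+* Res p n) :=
  fun α => ⟨WittVector.teichmuller p α, WittVector.teichmuller_coeff_zero p α⟩

/-- The residue field at a point. -/
def resHom (x : LT p n →+* K) : Res p n →+* K :=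
  RingHom.liftOfSurjective (WittVector.constantCoeff : WittVector p (Res p n) →+* Res p n)
    constantCoeff_surjective ⟨x.comp MvPowerSeries.C, constantCoeff_ker x⟩

theorem resHom_constantCoeff (x : LT p n →+* K) (w : WittVector p (Res p n)) :
    resHom x (WittVector.constantCoeff w) = x (MvPowerSeries.C w) := by
  rw [resHom, RingHom.liftOfRightInverse_comp_apply]
  rfl

theorem constAt_eq (x : LT p n →+* K) (α : Res p n) : constAt x α = resHom x α := by
  rw [constAt, ← resHom_constantCoeff, WittVector.constantCoeff]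
  exact congrArg _ (WittVector.teichmuller_coeff_zero p α)

end Hom

variable [NormedField K] [IsUltrametricDist K]

theorem norm_hom_eq_one {F : Type} [Field F] [Finite F] (φ : F →+* K) {α : F} (hα : α ≠ 0) :
    ‖φ α‖ = 1 := by
  have : Fintype F := Fintype.ofFinite F
  have h := congrArg (fun b => ‖φ b‖) (FiniteField.pow_card_sub_one_eq_one α hα)
  simp only [map_pow, norm_pow, map_one, norm_one] at h
  exact (pow_eq_one_iff_of_nonneg (norm_nonneg _)
    (Nat.sub_ne_zero_of_lt Fintype.one_lt_card)).1 h

theorem norm_hom_le_one {F : Type} [Field F] [Finite F] (φ : F →+* K) (α : F) : ‖φ α‖ ≤ 1 := by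
  rcases eq_or_ne α 0 with rfl | hα
  · simp
  · rw [norm_hom_eq_one φ hα]

theorem res_pow_mod (α : Res p n) (e : ℕ) : α ^ p ^ e = α ^ p ^ (e % n) := by
  rcases Nat.eq_zero_or_pos n with hn | hn
  · simp [hn]
  have : Fintype (Res p n) := Fintype.ofFinite _
  have hq : Fintype.card (Res p n) = p ^ n := by
    rw [← Nat.card_eq_fintype_card]; exact GaloisField.card p n hn.ne'
  conv_lhs => rw [← Nat.div_add_mod e n, pow_add, pow_mul, pow_mul]
  congr 1
  induction e / n with
  | zero => simp
  | succ k ih => rw [pow_succ (p ^ n), pow_mul, ih, ← hq, FiniteField.pow_card]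

/-- Exponents in different classes modulo `n` separate on `F_{p^n}`. -/
theorem separate (hn : 0 < n) (φ : Res p n →+* K) (s : Finset ℕ) (A : ℕ → K) {c : ℝ} (hc : 0 < c)
    (h : ∀ α : Res p n, ‖∑ e ∈ s, A e * φ α ^ p ^ e‖ < c) (j : ℕ) :
    ‖∑ e ∈ s.filter (fun e => e % n = j % n), A e‖ < c := by
  classical
  have : Fintype (Res p n) := Fintype.ofFinite _
  have hq : Fintype.card (Res p n) = p ^ n := by
    rw [← Nat.card_eq_fintype_card]; exact GaloisField.card p n hn.ne'
  have hlt : ∀ i : ℕ, p ^ (i % n) ≤ p ^ n - 1 := fun i =>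
    Nat.le_sub_one_of_lt (Nat.pow_lt_pow_right (Fact.out : p.Prime).one_lt (Nat.mod_lt i hn))
  set k := p ^ n - 1 - p ^ (j % n)
  have key : ∑ u : (Res p n)ˣ, φ (u : Res p n) ^ k * ∑ e ∈ s, A e * φ (u : Res p n) ^ p ^ e =
      -∑ e ∈ s.filter (fun e => e % n = j % n), A e := by
    simp only [mul_sum]
    rw [sum_comm, sum_filter, ← sum_neg_distrib]
    refine sum_congr rfl fun e _ => ?_
    have he : ∀ u : (Res p n)ˣ, φ (u : Res p n) ^ k * (A e * φ (u : Res p n) ^ p ^ e) =
        A e * φ ((u : Res p n) ^ (k + p ^ (e % n))) := fun u => by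
      rw [map_pow, pow_add, ← map_pow φ (u : Res p n) (p ^ e), res_pow_mod, map_pow]
      ring
    rw [sum_congr rfl fun u _ => he u, ← mul_sum, ← map_sum, FiniteField.sum_pow_units, hq]
    have hiff : p ^ n - 1 ∣ k + p ^ (e % n) ↔ e % n = j % n := by
      have h1 := hlt j
      have h2 := hlt e
      have hp0 : ∀ i, 0 < p ^ i := fun i => pow_pos (Fact.out : p.Prime).pos i
      constructor
      · rintro ⟨t, ht⟩
        have : p ^ (e % n) = p ^ (j % n) := by
          have hje := hp0 (j % n)
          have hee := hp0 (e % n)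
          rcases t with _ | _ | t
          · omega
          · omega
          · exfalso
            have : (p ^ n - 1) * 2 ≤ (p ^ n - 1) * (t + 1 + 1) := Nat.mul_le_mul_left _ (by omega)
            omega
        exact Nat.pow_right_injective (Fact.out : p.Prime).two_le this
      · intro he
        rw [he]
        exact ⟨1, by omega⟩
    simp only [hiff]
    split_ifs <;> simp
  rw [← norm_neg, ← key]
  refine norm_sum_lt _ _ hc fun u _ => lt_of_le_of_lt ?_ (h (u : Res p n))
  rw [norm_mul, norm_pow]
  exact mul_le_of_le_one_left (norm_nonneg _) (pow_le_one₀ (norm_nonneg _) (norm_hom_le_one φ _))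

end Vale.Agent.P217.Newton
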