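import Vale.Agent.P217.Newton.Residues

/-!
P217, Newton half: a depth large enough, the slots at this depth, and the elementary reductions of
relations between residues.
-/

open Finset Filter

noncomputable section

namespace Vale.Agent.P217.Newton

variable {p n h : ℕ} [Fact p.Prime] {K : Type} [NormedField K] [IsUltrametricDist K]
  {e : PowerSeries (LT p n)}

namespace Env

variable (E : Env K)

theorem emax_succ' (B : ℝ) (m : ℕ) : E.emax B (m + 1) = E.emax (E.mx B) m + E.imax B := by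
  simp only [emax, sum_range_succ', mxs_succ', mxs_zero]

theorem emin_succ' (B : ℝ) (m : ℕ) : E.emin B (m + 1) = E.emin (E.mx B) m + E.imin B := by
  simp only [emin, sum_range_succ', mxs_succ', mxs_zero]

end Env

/-- The choice of the depth `N` and of the range of exponents. -/
structure Big (Q : Pt p n h e K) (rho μ : ℝ) (k K0 N : ℕ) : Prop where
  bounded : Q.env.Bounded rho
  μ_pos : 0 < μ
  μ_lt : μ < 1
  dev : Q.Dev μ
  deep : Q.env.mxs rho (K0 + 1) < ‖Q.env.a h‖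
  large : K0 + 2 ≤ N
  small : μ ^ (p ^ h) ^ (N + 1) < Q.env.mxs rho (K0 + 3 + k)

theorem exists_big [CompleteSpace K] (Q : Pt p n h e K) {rho : ℝ} (hE : Q.env.Bounded rho)
    (k i : ℕ) : ∃ μ K0 N, Big Q rho μ k K0 N ∧ i ≤ N := by
  obtain ⟨μ, h0, h1, hdev⟩ := Q.exists_dev
  obtain ⟨j, hj⟩ := Q.env.exists_mxs_lt hE.1 hE.2.1 (norm_pos_iff.2 Q.env.a_h)
  obtain ⟨j', hj'⟩ := exists_pow_lt_of_lt_one (Q.env.mxs_pos hE.1 (j + 3 + k)) h1
  refine ⟨μ, j, j' + (j + 2) + i, ⟨hE, h0, h1, hdev, ?_, by omega, ?_⟩, by omega⟩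
  · exact ((Q.env.mxs_succ_lt hE.1 hE.2.1 j)).trans hj
  · refine lt_of_le_of_lt (pow_le_pow_of_le_one h0.le h1.le ?_) hj'
    exact le_trans (by omega) (Nat.lt_pow_self
      (Nat.one_lt_pow (by have := Q.hh; omega) (Fact.out : p.Prime).one_lt)).le

namespace Big

variable {Q : Pt p n h e K} {rho μ : ℝ} {k K0 N : ℕ} (H : Big Q rho μ k K0 N)
include H

theorem lev_pow {d j : ℕ} (hj : j ≤ d) :
    Q.env.lev rho d ^ p ^ (n * j) = Q.env.lev rho (d - j) := by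
  have := Q.env.lev_add_pow (rho := rho) H.bounded.1 (d - j) j
  rwa [Nat.sub_add_cancel hj] at this

theorem mxs_lev_eq {d : ℕ} (j : ℕ) :
    Q.env.mxs (Q.env.lev rho d) (d + j) = Q.env.mxs rho j := by
  rw [Q.env.mxs_add]
  congr 1
  have := Q.env.mxs_lev H.bounded 0 d
  rwa [zero_add, Env.lev_zero] at this

theorem base (M : ℕ) : 0 < Q.env.lev rho N ^ p ^ M ∧ Q.env.lev rho N ^ p ^ M < 1 :=
  ⟨pow_pos (Q.env.lev_pos H.bounded.1 N) _, pow_lt_one₀ (Q.env.lev_pos H.bounded.1 N).le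
    (Q.env.lev_lt_one H.bounded.1 H.bounded.2.1 N) (pow_ne_zero _ (Fact.out : p.Prime).ne_zero)⟩

theorem base_lo : Q.env.lev rho N ^ p ^ (n * K0) = Q.env.lev rho (N - K0) :=
  H.lev_pow (d := N) (by have := H.large; omega)

theorem top_eq : Q.env.mxs (Q.env.lev rho N ^ p ^ (n * K0)) (N + 1) = Q.env.mxs rho (K0 + 1) := by
  rw [H.base_lo, show N + 1 = N - K0 + (K0 + 1) by have := H.large; omega, H.mxs_lev_eq]

theorem stage {M : ℕ} (h1 : n * K0 ≤ M) (h2 : M ≤ n * K0 + n) :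
    0 < Q.env.mxs (Q.env.lev rho N ^ p ^ M) (N + 1) ∧
    Q.env.mxs (Q.env.lev rho N ^ p ^ M) (N + 1) < 1 ∧
    Q.env.mxs (Q.env.lev rho N ^ p ^ M) (N + 1) < ‖Q.env.a h‖ ∧
    μ ^ (p ^ h) ^ (N + 1) < Q.env.mxs (Q.env.lev rho N ^ p ^ M) (N + 1) ∧
    μ ^ (p ^ h) ^ (N + 1 + k) < Q.env.mxs (Q.env.mxs (Q.env.lev rho N ^ p ^ M) (N + 1)) k := by
  have hl := H.large
  obtain ⟨hb0, hb1⟩ := H.base M
  set b := Q.env.lev rho N
  have hbpos : 0 < b := Q.env.lev_pos H.bounded.1 N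
  have hblt : b ≤ 1 := (Q.env.lev_lt_one H.bounded.1 H.bounded.2.1 N).le
  have hup : Q.env.mxs (b ^ p ^ M) (N + 1) ≤ Q.env.mxs rho (K0 + 1) := by
    rw [← H.top_eq]
    exact Q.env.mxs_mono hb0 (pow_le_pow_of_le_one hbpos.le hblt
      (Nat.pow_le_pow_right (Fact.out : p.Prime).pos h1)) _
  have hlo : Q.env.mxs rho (K0 + 2) ≤ Q.env.mxs (b ^ p ^ M) (N + 1) := by
    have e1 : Q.env.mxs (b ^ p ^ (n * (K0 + 1))) (N + 1) = Q.env.mxs rho (K0 + 2) := by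
      rw [H.lev_pow (d := N) (by omega),
        show N + 1 = N - (K0 + 1) + (K0 + 2) by omega, H.mxs_lev_eq]
    rw [← e1]
    exact Q.env.mxs_mono (pow_pos hbpos _) (pow_le_pow_of_le_one hbpos.le hblt
      (Nat.pow_le_pow_right (Fact.out : p.Prime).pos (by rw [mul_add, mul_one]; omega))) _
  have hanti := Q.env.mxs_antitone H.bounded.1 H.bounded.2.1
  have hsm := H.small
  refine ⟨Q.env.mxs_pos hb0 _, Q.env.mxs_lt_one hb0 hb1 _, hup.trans_lt H.deep,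
    hsm.trans_le ((hanti (by omega)).trans hlo), ?_⟩
  calc μ ^ (p ^ h) ^ (N + 1 + k) ≤ μ ^ (p ^ h) ^ (N + 1) :=
        pow_le_pow_of_le_one H.μ_pos.le H.μ_lt.le
          (Nat.pow_le_pow_right (pow_pos (Fact.out : p.Prime).pos _) (by omega))
    _ < Q.env.mxs rho (K0 + 3 + k) := hsm
    _ ≤ Q.env.mxs rho (K0 + 2 + k) := hanti (by omega)
    _ ≤ _ := by
      rw [Q.env.mxs_add]
      exact Q.env.mxs_mono (Q.env.mxs_pos H.bounded.1 _) hlo k

end Big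

variable [CharP K p]

theorem norm_pow_sub_lt {a c : K} {σ : ℝ} (hac : ‖a - c‖ < σ) (b : ℕ) :
    ‖a ^ p ^ b - c ^ p ^ b‖ < σ ^ p ^ b := by
  rw [← sub_pow_char_pow, norm_pow]
  exact pow_lt_pow_left₀ hac (norm_nonneg _) (pow_ne_zero _ (Fact.out : p.Prime).ne_zero)

/-- Taking a Frobenius root of a relation. -/
theorem reduce (hh : 1 ≤ h) {r : ℕ} {σ : ℝ} (hσ : 0 < σ) (s : Finset (Fin r)) (b : ℕ)
    (γ y z : Fin r → K) (hγ : ∀ l, γ l ^ p ^ h = γ l)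
    (hy : ∀ l ∈ s, ‖y l - z l ^ p ^ b‖ < σ ^ p ^ b)
    (hrel : ‖∑ l ∈ s, γ l * y l‖ < σ ^ p ^ b) :
    ‖∑ l ∈ s, rt p h b (γ l) * z l‖ < σ := by
  refine lt_of_pow_lt_pow_left₀ (p ^ b) hσ.le ?_
  rw [← norm_pow, sum_pow_char_pow]
  rw [show ∑ l ∈ s, (rt p h b (γ l) * z l) ^ p ^ b =
    ∑ l ∈ s, γ l * y l + -∑ l ∈ s, γ l * (y l - z l ^ p ^ b) by
    rw [← sum_neg_distrib, ← sum_add_distrib]
    exact sum_congr rfl fun l _ => by rw [mul_pow, rt_pow hh (hγ l)]; ring]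
  refine lt_of_le_of_lt (IsUltrametricDist.norm_add_le_max _ _) (max_lt hrel ?_)
  rw [norm_neg]
  refine norm_sum_lt _ _ (pow_pos hσ _) fun l hl => lt_of_le_of_lt ?_ (hy l hl)
  rw [norm_mul]
  exact mul_le_of_le_one_left (norm_nonneg _) (norm_fixed_le hh (hγ l))

omit [CharP K p] [IsUltrametricDist K] [Fact p.Prime] in
theorem cancel_factor {ι : Type*} {t : K} {B : ℝ} {s : Finset ι} {δ u : ι → K}
    (h : ‖∑ l ∈ s, δ l * (t * u l)‖ < ‖t‖ * B) : ‖∑ l ∈ s, δ l * u l‖ < B := by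
  rw [show ∑ l ∈ s, δ l * (t * u l) = t * ∑ l ∈ s, δ l * u l by
    rw [mul_sum]; exact sum_congr rfl fun l _ => by ring, norm_mul] at h
  exact lt_of_mul_lt_mul_left h (norm_nonneg _)

section Slots

variable [CompleteSpace K] {F : FormalGroup (LT p n)} {hh : 1 ≤ h} {P : Ideal (LT p n)}
  {G : GoodPoint p n F h hh P e K} {T : Tower p n G} {Q : Pt p n h e K} (hQ : Q.x = G.x)
  {μ : ℝ} {k K0 N : ℕ} (H : Big Q G.rho μ k K0 N) {τ : PowerSeries K}
  (hτ : IsUnipotentCoordinate G τ)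

/-- The bound of the slot with exponent `M`. -/
def radius (Q : Pt p n h e K) (rho : ℝ) (τ : PowerSeries K) (N M : ℕ) : ℝ :=
  ‖PowerSeries.coeff 1 τ‖ * Q.env.mxs (Q.env.lev rho N ^ p ^ M) (N + 1)

include hQ H hτ in
omit [CharP K p] [CompleteSpace K] in
theorem radius_facts {M : ℕ} (h1 : n * K0 ≤ M) (h2 : M ≤ n * K0 + n) :
    0 < radius Q G.rho τ N M ∧ radius Q G.rho τ N M < 1 := by
  obtain ⟨-, ht0, ht1, -⟩ := coeff_one_facts hQ hτ
  obtain ⟨hB, hB1, -⟩ := H.stage h1 h2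
  exact ⟨mul_pos ht0 hB, (mul_le_of_le_one_left hB.le ht1).trans_lt hB1⟩

include hQ H hτ in
theorem slot_plain {M : ℕ} (h1 : n * K0 ≤ M) (h2 : M ≤ n * K0 + n) (α : Res p n)
    (l : Fin (n - h)) :
    ‖ev₁ τ (slotPt T α M l) -
        PowerSeries.coeff 1 τ * Q.env.L^[N + 1] (resHom G.x α * T.pts (N + 1) l ^ p ^ M)‖ <
      radius Q G.rho τ N M ∧
    ‖ev₁ τ (slotPt T α M l)‖ ≤ radius Q G.rho τ N M := by
  obtain ⟨-, -, hBa, hμB, -⟩ := H.stage h1 h2
  exact slot_lead T Q hQ H.μ_pos H.μ_lt H.dev hτ α M l (N + 1) (Q.env.lev_pos H.bounded.1 N)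
    (Q.env.lev_lt_one H.bounded.1 H.bounded.2.1 N) (pts_le T Q hQ H.bounded l N) hBa hμB

omit [CharP K p] [CompleteSpace K] in
theorem good_zero {u : Finset (Fin (n - h))} (hu : u ⊆ G.good) {η : Fin (n - h) → K}
    (hη : ∀ l, η l ^ p ^ h = η l) (hsum : ‖∑ l ∈ u, η l * G.tor l‖ < G.rho) :
    ∀ l ∈ u, η l = 0 := by
  classical
  intro l hl
  have := G.good_indep (fun i => if i ∈ u then η i else 0) (fun i => by
    split_ifs
    · exact hη i
    · exact zero_pow (pow_ne_zero _ (Fact.out : p.Prime).ne_zero)) (by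
    simpa [ite_mul, sum_ite_mem, inter_eq_right.2 hu] using hsum) l (hu hl)
  simpa [hl] using this

include hQ H in
omit [CompleteSpace K] in
theorem good_residue [CompleteSpace K] {l : Fin (n - h)} (hl : l ∈ G.good) :
    ‖T.pts (N + 1) l ^ (p ^ n) ^ N - G.tor l‖ < G.rho := by
  have h0 : ‖T.pts (0 + 1) l‖ = G.rho := by rw [zero_add, T.pts_one]; exact norm_tor_good hl
  have := (climb T Q hQ H.bounded l h0 N).2
  rwa [zero_add, zero_add, T.pts_one] at this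

include hQ H hτ in
/-- No relation involves only good coordinates. -/
theorem good_only {M : ℕ} (h1 : n * K0 ≤ M) (h2 : M ≤ n * K0 + n) {u : Finset (Fin (n - h))}
    (hu : u ⊆ G.good) (b : ℕ) {γ : Fin (n - h) → K} (hγ : ∀ l, γ l ^ p ^ h = γ l)
    (hrel : ∀ α : Res p n, ‖∑ l ∈ u, γ l * ev₁ τ (slotPt T α M l) ^ p ^ b‖ <
      radius Q G.rho τ N M ^ p ^ b) :
    ∀ l ∈ u, γ l = 0 := by
  obtain ⟨η, hη, hroot, hsum⟩ := Q.core H.bounded (resHom G.x) N M u (fun l => rt p h b (γ l))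
    (T.pts (N + 1)) G.tor (fun l => rt_fixed (hγ l) b)
    (fun l _ => pts_le T Q hQ H.bounded l N) (fun l hl => good_residue hQ H (hu hl))
    fun α => cancel_factor (reduce hh (radius_facts hQ H hτ h1 h2).1 u b γ
      (fun l => ev₁ τ (slotPt T α M l) ^ p ^ b)
      (fun l => PowerSeries.coeff 1 τ * Q.env.L^[N + 1] (resHom G.x α * T.pts (N + 1) l ^ p ^ M))
      hγ (fun l _ => norm_pow_sub_lt (slot_plain hQ H hτ h1 h2 α l).1 b) (hrel α))
  intro l hl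
  have h0 := hroot l
  rw [good_zero hu hη hsum l hl, zero_pow (pow_ne_zero _ (Fact.out : p.Prime).ne_zero)] at h0
  rw [← rt_pow hh (hγ l) b, ← h0, zero_pow (pow_ne_zero _ (Fact.out : p.Prime).ne_zero)]

end Slots

end Vale.Agent.P217.Newton
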