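import Vale.Agent.P217.Newton.Big

/-!
P217, Newton half: the extra coordinate reaches the radius.
-/

open Finset

noncomputable section

namespace Vale.Agent.P217.Newton

variable {p n h : ℕ} [Fact p.Prime] {K : Type} [NormedField K] [IsUltrametricDist K]
  [CompleteSpace K] [CharP K p] {e : PowerSeries (LT p n)} {F : FormalGroup (LT p n)} {hh : 1 ≤ h}
  {P : Ideal (LT p n)} {G : GoodPoint p n F h hh P e K} {T : Tower p n G} {Q : Pt p n h e K}
  (hQ : Q.x = G.x) {μ : ℝ} {k K0 N : ℕ} (H : Big Q G.rho μ k K0 N) {τ : PowerSeries K}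
  (hτ : IsUnipotentCoordinate G τ)

/-- The conclusion wanted from the choice of slots. -/
def Slots (T : Tower p n G) (τ : PowerSeries K) : Prop :=
  ∃ (ι : Type) (_ : Finite ι) (α : ι → Res p n) (M : ι → ℕ) (σ : ι → ℝ)
    (v : Fin (n - h) → ℝ),
    (∀ l, 1 ≤ v l) ∧ (∀ i, 0 < σ i ∧ σ i < 1) ∧
    (∀ i l, ‖ev₁ τ (slotPt T (α i) (M i) l)‖ ≤ σ i ^ v l) ∧
    ResiduesIndependent p h v σ (fun i l => ev₁ τ (slotPt T (α i) (M i) l))
      (insert G.extra G.good)

include hQ H hτ in
/-- Classes avoiding the extra coordinate. -/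
theorem class_good {M : ℕ} (h1 : n * K0 ≤ M) (h2 : M ≤ n * K0 + n) {u : Finset (Fin (n - h))}
    (hu : u ⊆ G.good) (b : Fin (n - h) → ℕ) {c : ℝ} (hc : ∀ l ∈ u, (p : ℝ) ^ b l = c)
    {γ : Fin (n - h) → K} (hγ : ∀ l, γ l ^ p ^ h = γ l)
    (hrel : ∀ α : Res p n, ‖∑ l ∈ u, γ l * ev₁ τ (slotPt T α M l) ^ p ^ b l‖ <
      radius Q G.rho τ N M ^ c) :
    ∀ l ∈ u, γ l = 0 := by
  intro l hl
  refine good_only (T := T) hQ H hτ h1 h2 hu (b l) hγ (fun α => ?_) l hl
  have hb : ∀ i ∈ u, b i = b l := fun i hi =>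
    pow_right_injective₀ (by exact_mod_cast (Fact.out : p.Prime).pos)
      (by exact_mod_cast (Fact.out : p.Prime).one_lt.ne') ((hc i hi).trans (hc l hl).symm)
  have := hrel α
  rw [← hc l hl, ← Nat.cast_pow, Real.rpow_natCast,
    sum_congr rfl fun i hi => by rw [hb i hi]] at this
  exact this

include hQ H hτ in
theorem slot_extra (hk : ‖T.pts (k + 1) G.extra‖ = G.rho) {M : ℕ} (h1 : n * K0 ≤ M)
    (h2 : M ≤ n * K0 + n) (α : Res p n) :
    ‖ev₁ τ (slotPt T α M G.extra) - (PowerSeries.coeff 1 τ *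
        Q.env.L^[N + 1] (resHom G.x α * T.pts (N + 1 + k) G.extra ^ p ^ M)) ^ (p ^ h) ^ k‖ <
      radius Q G.rho τ N M ^ (p ^ h) ^ k ∧
    ‖ev₁ τ (slotPt T α M G.extra)‖ ≤ radius Q G.rho τ N M ^ (p ^ h) ^ k := by
  obtain ⟨hB, -, hBa, -, hμB⟩ := H.stage h1 h2
  obtain ⟨ht, ht0, -⟩ := coeff_one_facts hQ hτ
  have hpt : ‖T.pts (N + 1 + k) G.extra‖ ≤ Q.env.lev G.rho N := by
    rw [show N + 1 + k = k + N + 1 by omega]
    exact (climb T Q hQ H.bounded _ hk N).1.le
  have hb0 := Q.env.lev_pos H.bounded.1 N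
  have hb1 := Q.env.lev_lt_one H.bounded.1 H.bounded.2.1 N
  obtain ⟨hs, hs'⟩ := slot_lead T Q hQ H.μ_pos H.μ_lt H.dev hτ α M G.extra (N + 1 + k) hb0 hb1 hpt
    (by
      rw [Q.env.mxs_add]
      refine lt_of_le_of_lt ?_ hBa
      exact Q.env.mxs_antitone hB (H.stage h1 h2).2.1 (Nat.zero_le k))
    (by rw [Q.env.mxs_add]; exact hμB)
  have hz : ‖Q.env.L^[N + 1] (resHom G.x α * T.pts (N + 1 + k) G.extra ^ p ^ M)‖ ≤
      Q.env.mxs (Q.env.lev G.rho N ^ p ^ M) (N + 1) := by
    refine Q.norm_iterate_L_le ?_ _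
    rw [norm_mul, norm_pow]
    exact (mul_le_of_le_one_left (pow_nonneg (norm_nonneg _) _) (norm_hom_le_one _ α)).trans
      (pow_le_pow_left₀ (norm_nonneg _) hpt _)
  obtain ⟨hd, hd'⟩ := Q.deep_iterate ht hB hBa hz k
  rw [← Function.iterate_add_apply, add_comm k (N + 1)] at hd
  rw [Q.env.mxs_add] at hs hs'
  rw [hd'] at hs hs' hd
  refine ⟨?_, hs'⟩
  rw [← sub_add_sub_cancel]
  exact lt_of_le_of_lt (IsUltrametricDist.norm_add_le_max _ _) (max_lt hs hd)

include H in
omit [CharP K p] [CompleteSpace K] in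
/-- Two consecutive total exponents. -/
theorem exists_consecutive : ∃ i < n,
    n * K0 + (i + 1) + Q.env.emax (Q.env.lev G.rho N ^ p ^ (n * K0 + (i + 1))) (N + 1) =
      n * K0 + i + Q.env.emax (Q.env.lev G.rho N ^ p ^ (n * K0 + i)) (N + 1) + 1 := by
  have hb0 := Q.env.lev_pos H.bounded.1 N
  have hb1 := Q.env.lev_lt_one H.bounded.1 H.bounded.2.1 N
  refine exists_step (fun i => n * K0 + i +
    Q.env.emax (Q.env.lev G.rho N ^ p ^ (n * K0 + i)) (N + 1)) n (fun i _ => ?_) ?_
  · have := Q.env.emax_mono (pow_pos hb0 (p ^ (n * K0 + (i + 1))))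
      (pow_le_pow_of_le_one hb0.le hb1.le (Nat.pow_le_pow_right (Fact.out : p.Prime).pos
        (show n * K0 + i ≤ n * K0 + (i + 1) by omega))) (N + 1)
    omega
  · set B := Q.env.lev G.rho N ^ p ^ (n * K0)
    have hpure : Q.env.imax B = n ∧ Q.env.imin B = n ∧ Q.env.mx B = B ^ p ^ n :=
      Q.env.pure H.bounded (by
        rw [show B = _ from H.base_lo]
        exact Q.env.rho_lt_lev H.bounded.1 H.bounded.2.1 (by have := H.large; omega))
    have hdeep : Q.env.imax (Q.env.mxs B (N + 1)) = h :=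
      (Q.env.deep (Q.env.mxs_pos (H.base _).1 _) (H.stage le_rfl (Nat.le_add_right _ _)).2.2.1).1
    have hemx := Q.env.emax_mx B (N + 1)
    rw [hpure.1, hdeep, hpure.2.2, ← pow_mul, ← pow_add] at hemx
    simp only [add_zero]
    have := Q.hh
    have : Q.env.emax B (N + 1) = Q.env.emax (Q.env.lev G.rho N ^ p ^ (n * K0)) (N + 1) := rfl
    omega

include hQ H hτ in
theorem slots_of_radius (hT : ExtraFree T) (hk : ‖T.pts (k + 1) G.extra‖ = G.rho) :
    Slots T τ := by
  classical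
  have hP0 : ∀ j, p ^ j ≠ 0 := fun j => pow_ne_zero j (Fact.out : p.Prime).ne_zero
  let x : Fin (n - h) → K := fun l =>
    if l = G.extra then T.pts (N + 1 + k) l else T.pts (N + 1) l
  let r : Fin (n - h) → K := fun l => if l = G.extra then T.pts (k + 1) l else G.tor l
  let v : Fin (n - h) → ℝ := fun l => if l = G.extra then (((p ^ h) ^ k : ℕ) : ℝ) else 1
  let M : Fin (n + 1) × Res p n → ℕ := fun i => n * K0 + i.1.val
  have hM1 : ∀ i, n * K0 ≤ M i := fun i => Nat.le_add_right _ _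
  have hM2 : ∀ i, M i ≤ n * K0 + n := fun i => by
    simp only [M]; have := i.1.isLt; omega
  refine ⟨Fin (n + 1) × Res p n, inferInstance, fun i => i.2, M,
    fun i => radius Q G.rho τ N (M i), v, fun l => ?_,
    fun i => radius_facts hQ H hτ (hM1 i) (hM2 i), fun i l => ?_, ?_⟩
  · simp only [v]
    split_ifs
    · exact_mod_cast Nat.one_le_pow _ _ (pow_pos (Fact.out : p.Prime).pos _)
    · exact le_rfl
  · simp only [v]
    split_ifs with hl
    · subst hl
      rw [Real.rpow_natCast]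
      exact (slot_extra hQ H hτ hk (hM1 i) (hM2 i) i.2).2
    · rw [Real.rpow_one]
      exact (slot_plain hQ H hτ (hM1 i) (hM2 i) i.2 l).2
  intro c b γ hγ hrel l₀ hl₀ hc₀
  set s := (insert G.extra G.good).filter (fun l => v l * (p : ℝ) ^ b l = c) with hs
  have hl₀s : l₀ ∈ s := mem_filter.2 ⟨hl₀, hc₀⟩
  suffices hall : ∀ l ∈ s, γ l = 0 from hall l₀ hl₀s
  have hgood : ∀ l ∈ s, l ≠ G.extra → l ∈ G.good := fun l hl hne =>
    (mem_insert.1 (mem_filter.1 hl).1).resolve_left hne
  by_cases hex : G.extra ∈ s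
  swap
  · have hu : s ⊆ G.good := fun l hl => hgood l hl fun he => hex (he ▸ hl)
    refine class_good hQ H hτ (M := n * K0) le_rfl (Nat.le_add_right _ _) hu b (fun l hl => ?_) hγ
      fun α => hrel (⟨0, Nat.succ_pos n⟩, α)
    have := (mem_filter.1 hl).2
    rwa [show v l = 1 from if_neg fun he : l = G.extra => hex (he ▸ hl), one_mul] at this
  set B := h * k + b G.extra with hBdef
  have hcB : c = ((p ^ B : ℕ) : ℝ) := by
    rw [← (mem_filter.1 hex).2, show v G.extra = _ from if_pos rfl, hBdef, pow_add, pow_mul]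
    push_cast
    ring
  have hbB : ∀ l ∈ s, l ≠ G.extra → b l = B := by
    intro l hl hne
    have := (mem_filter.1 hl).2
    rw [show v l = 1 from if_neg hne, one_mul, hcB, ← Nat.cast_pow] at this
    exact Nat.pow_right_injective (Fact.out : p.Prime).two_le (Nat.cast_injective this)
  set δ := fun l => rt p h B (γ l) with hδdef
  have hres : ∀ i : Fin (n + 1), ∃ η : Fin (n - h) → K, (∀ l, η l ^ p ^ h = η l) ∧
      (∀ l, η l ^ p ^ (n * K0 + i.val +
        Q.env.emax (Q.env.lev G.rho N ^ p ^ (n * K0 + i.val)) (N + 1) + n * N * (h - 1)) = δ l) ∧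
      ‖∑ l ∈ s, η l * r l‖ < G.rho := by
    intro i
    refine Q.core H.bounded (resHom G.x) N _ s δ x r (fun l => rt_fixed (hγ l) B) (fun l hl => ?_)
      (fun l hl => ?_) fun α => ?_
    · simp only [x]
      split_ifs with he
      · rw [he, show N + 1 + k = k + N + 1 by omega]
        exact (climb T Q hQ H.bounded _ hk N).1.le
      · exact pts_le T Q hQ H.bounded l N
    · simp only [x, r]
      split_ifs with he
      · rw [he, show N + 1 + k = k + N + 1 by omega]
        exact (climb T Q hQ H.bounded _ hk N).2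
      · exact good_residue hQ H (hgood l hl he)
    · have hM1' : n * K0 ≤ n * K0 + i.val := Nat.le_add_right _ _
      have hM2' : n * K0 + i.val ≤ n * K0 + n := by have := i.isLt; omega
      have hr : ‖∑ l ∈ s, γ l * ev₁ τ (slotPt T α (n * K0 + i.val) l) ^ p ^ b l‖ <
          radius Q G.rho τ N (n * K0 + i.val) ^ p ^ B := by
        rw [← Real.rpow_natCast, ← hcB]
        exact hrel (i, α)
      refine cancel_factor (reduce hh (radius_facts hQ H hτ hM1' hM2').1 s B γ
        (fun l => ev₁ τ (slotPt T α (n * K0 + i.val) l) ^ p ^ b l)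
        (fun l => PowerSeries.coeff 1 τ *
          Q.env.L^[N + 1] (resHom G.x α * x l ^ p ^ (n * K0 + i.val))) hγ (fun l hl => ?_) hr)
      simp only [x]
      split_ifs with he
      · subst he
        rw [show p ^ B = (p ^ h) ^ k * p ^ b G.extra by rw [hBdef, pow_add, pow_mul p h k],
          pow_mul (_ * _), pow_mul (radius _ _ _ _ _)]
        exact norm_pow_sub_lt (slot_extra hQ H hτ hk hM1' hM2' α).1 _
      · rw [hbB l hl he]
        exact norm_pow_sub_lt (slot_plain hQ H hτ hM1' hM2' α l).1 _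
  obtain ⟨i, hi, hstep⟩ := exists_consecutive H
  obtain ⟨η, hη, hroot, hsum⟩ := hres ⟨i, by omega⟩
  obtain ⟨η', hη', hroot', hsum'⟩ := hres ⟨i + 1, by omega⟩
  have hfrob : ∀ l, η' l ^ p = η l := by
    intro l
    set S := n * K0 + i + Q.env.emax (Q.env.lev G.rho N ^ p ^ (n * K0 + i)) (N + 1) +
      n * N * (h - 1)
    refine iterateFrobenius_inj K p S ?_
    simp only [iterateFrobenius_def]
    rw [← pow_mul, ← pow_succ', hroot l, ← hroot' l]
    congr 2
    show S + 1 = _
    dsimp only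
    rw [hstep]
    omega
  set u := s.erase G.extra
  have hu : u ⊆ G.good := fun l hl => hgood l (mem_of_mem_erase hl) (ne_of_mem_erase hl)
  have hsplit : ∀ f : Fin (n - h) → K, ∑ l ∈ s, f l * r l =
      f G.extra * T.pts (k + 1) G.extra + ∑ l ∈ u, f l * G.tor l := by
    intro f
    rw [← add_sum_erase s _ hex]
    congr 1
    · rw [show r G.extra = T.pts (k + 1) G.extra from if_pos rfl]
    · exact sum_congr rfl fun l hl => by
        rw [show r l = G.tor l from if_neg (ne_of_mem_erase hl)]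
  rw [hsplit] at hsum hsum'
  have hx0 : η' G.extra = 0 := by
    by_contra hne
    set a := η' G.extra
    have hna : ‖a‖ = 1 := norm_fixed_eq hh (hη' _) hne
    have hea : η G.extra = a ^ p := (hfrob _).symm
    set ζ := fun l => η' l / a with hζ
    have hζh : ∀ l, ζ l ^ p ^ h = ζ l := fun l => by simp only [hζ, div_pow, hη', a]
    have hA : ‖T.pts (k + 1) G.extra + ∑ l ∈ u, ζ l * G.tor l‖ < G.rho := by
      rw [show ∑ l ∈ u, ζ l * G.tor l = (∑ l ∈ u, η' l * G.tor l) / a by
          rw [sum_div]; exact sum_congr rfl fun l _ => by simp only [hζ]; ring,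
        show T.pts (k + 1) G.extra + (∑ l ∈ u, η' l * G.tor l) / a =
          (a * T.pts (k + 1) G.extra + ∑ l ∈ u, η' l * G.tor l) / a by
          rw [add_div, mul_div_cancel_left₀ _ hne], norm_div, hna, div_one]
      exact hsum'
    have hA' : ‖T.pts (k + 1) G.extra + ∑ l ∈ u, ζ l ^ p * G.tor l‖ < G.rho := by
      have hap : a ^ p ≠ 0 := pow_ne_zero _ hne
      rw [show ∑ l ∈ u, ζ l ^ p * G.tor l = (∑ l ∈ u, η l * G.tor l) / a ^ p by
          rw [sum_div]; exact sum_congr rfl fun l _ => by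
            simp only [hζ, div_pow, hfrob]; ring,
        show T.pts (k + 1) G.extra + (∑ l ∈ u, η l * G.tor l) / a ^ p =
          (η G.extra * T.pts (k + 1) G.extra + ∑ l ∈ u, η l * G.tor l) / a ^ p by
          rw [hea, add_div, mul_div_cancel_left₀ _ hap], norm_div, norm_pow, hna, one_pow, div_one]
      exact hsum
    have hd := good_zero (G := G) hu (η := fun l => ζ l ^ p - ζ l) (fun l => by
      rw [sub_pow_char_pow, ← pow_mul, mul_comm, pow_mul, hζh]) (by
      rw [show ∑ l ∈ u, (ζ l ^ p - ζ l) * G.tor l =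
        (T.pts (k + 1) G.extra + ∑ l ∈ u, ζ l ^ p * G.tor l) +
          -(T.pts (k + 1) G.extra + ∑ l ∈ u, ζ l * G.tor l) by
        simp only [sub_mul, sum_sub_distrib]; ring]
      exact lt_of_le_of_lt (IsUltrametricDist.norm_add_le_max _ _)
        (max_lt hA' (by rwa [norm_neg])))
    refine hT k hk (fun l => if l ∈ u then ζ l else 0) (fun l => ?_) ?_
    · split_ifs with hl
      · exact sub_eq_zero.1 (hd l hl)
      · exact zero_pow (Fact.out : p.Prime).ne_zero
    · simpa [ite_mul, sum_ite_mem, inter_eq_right.2 hu] using hA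
  rw [hx0, zero_mul, zero_add] at hsum'
  have hη0 : ∀ l ∈ s, η' l = 0 := by
    intro l hl
    rcases eq_or_ne l G.extra with rfl | hne
    · exact hx0
    · exact good_zero hu hη' hsum' l (mem_erase.2 ⟨hne, hl⟩)
  intro l hl
  have h0 := hroot' l
  rw [hη0 l hl, zero_pow (hP0 _)] at h0
  rw [← rt_pow hh (hγ l) B, show rt p h B (γ l) = δ l from rfl, ← h0, zero_pow (hP0 _)]

end Vale.Agent.P217.Newton
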