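import Vale.Agent.P217.Newton.CaseA

/-!
P217, Newton half: the extra coordinate stays strictly between two levels.
-/

open Finset

noncomputable section

namespace Vale.Agent.P217.Newton

variable {p n h : ℕ} [Fact p.Prime] {K : Type} [NormedField K] [IsUltrametricDist K]
  [CompleteSpace K] [CharP K p] {e : PowerSeries (LT p n)}

namespace Pt

variable (Q : Pt p n h e K)

omit [CompleteSpace K] in
/-- Disjoint windows: a relation with Frobenius-twisted terms of the same size cannot cancel the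
dominant term. -/
theorem top_zero (φ : Res p n →+* K) {t : K} {B' : ℝ} (hB' : 0 < B') (hB'1 : B' < 1)
    {B0 : ℝ} (hB0 : 0 < B0) (ht : 0 < ‖t‖) (m m0 M : ℕ) {b' : ℝ} (hb' : b' ^ p ^ M = B')
    {a : K} (ha : ‖a‖ ≤ 1) {x : K} (hx : ‖x‖ = b') {u : Finset (Fin (n - h))} {δ y : Fin (n - h) → K} (β : ℕ)
    (hδ : ∀ l ∈ u, ‖δ l‖ ≤ 1) (hy : ∀ l ∈ u, ‖y l‖ ^ p ^ M ≤ B0)
    (hsize : u.Nonempty → (‖t‖ * Q.env.mxs B0 m0) ^ p ^ β = ‖t‖ * Q.env.mxs B' m)
    (hwin : u.Nonempty → Q.env.emax B0 m0 + β < Q.env.emax B' m ∧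
      Q.env.emax B' m < Q.env.emin B0 m0 + β + n)
    (hyp : ∀ α : Res p n, ‖a * (t * Q.env.L^[m] (φ α * x ^ p ^ M)) +
      ∑ l ∈ u, δ l * (t * Q.env.L^[m0] (φ α * y l ^ p ^ M)) ^ p ^ β‖ < ‖t‖ * Q.env.mxs B' m) :
    ‖a‖ < 1 := by
  classical
  set E' := Q.env.emax B' m
  set c := ‖t‖ * Q.env.mxs B' m
  have hc : 0 < c := mul_pos ht (Q.env.mxs_pos hB' m)
  set A : ℕ ⊕ ℕ → K := Sum.elim (fun f => a * (t * (Q.env.C m f * x ^ p ^ (M + f))))
    (fun f => ∑ l ∈ u, δ l * (t * (Q.env.C m0 f * y l ^ p ^ (M + f))) ^ p ^ β)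
  set ε : ℕ ⊕ ℕ → ℕ := Sum.elim (fun f => f) (fun f => f + β)
  have key := separate_one Q.n_pos φ ((range (n * m + 1)).disjSum (range (n * m0 + 1))) ε A hc
    (fun α => by
      rw [sum_disjSum]
      simp only [A, ε, Sum.elim_inl, Sum.elim_inr]
      have e1 : ∑ f ∈ range (n * m + 1), a * (t * (Q.env.C m f * x ^ p ^ (M + f))) * φ α ^ p ^ f =
          a * (t * Q.env.L^[m] (φ α * x ^ p ^ M)) := by
        rw [Q.iterate_L_eq, mul_sum, mul_sum]
        exact sum_congr rfl fun f _ => by ring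
      have e2 : ∑ f ∈ range (n * m0 + 1),
          (∑ l ∈ u, δ l * (t * (Q.env.C m0 f * y l ^ p ^ (M + f))) ^ p ^ β) * φ α ^ p ^ (f + β) =
          ∑ l ∈ u, δ l * (t * Q.env.L^[m0] (φ α * y l ^ p ^ M)) ^ p ^ β := by
        simp only [sum_mul]
        rw [sum_comm]
        refine sum_congr rfl fun l _ => ?_
        rw [Q.iterate_L_eq, mul_sum, sum_pow_char_pow, mul_sum]
        refine sum_congr rfl fun f _ => ?_
        rw [pow_add p f β, pow_mul (φ α)]
        ring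
      rw [e1, e2]
      exact hyp α)
    (i₀ := Sum.inl E') (inl_mem_disjSum.2 (Q.emax_lt_range B' m))
    fun i _ hne hmod => by
      rcases i with f | f
      · simp only [A, Sum.elim_inl, norm_mul, norm_pow, hx]
        rw [pow_add p M f, pow_mul b', hb']
        have hfE : f ≠ E' := fun he => hne (by rw [he])
        have hlt := Q.C_lt hB' (class_outside (Q.span_lt hB' hB'1 m) hmod hfE)
        exact lt_of_le_of_lt (mul_le_of_le_one_left (mul_nonneg (norm_nonneg _)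
          (mul_nonneg (norm_nonneg _) (pow_nonneg hB'.le _))) ha) (mul_lt_mul_of_pos_left hlt ht)
      · rcases u.eq_empty_or_nonempty with rfl | hu
        · simpa [A] using hc
        obtain ⟨hw1, hw2⟩ := hwin hu
        have hout : Q.env.emax B0 m0 < f ∨ f < Q.env.emin B0 m0 := by
          by_contra hcon
          push Not at hcon
          have hle : f + β ≤ E' := by omega
          have h0 := Nat.eq_zero_of_dvd_of_lt ((Nat.modEq_iff_dvd' hle).1 hmod) (by omega)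
          omega
        simp only [A, Sum.elim_inr]
        refine norm_sum_lt _ _ hc fun l hl => ?_
        rw [norm_mul, norm_pow, norm_mul, norm_mul, norm_pow, pow_add p M f, pow_mul]
        refine lt_of_le_of_lt (mul_le_of_le_one_left (pow_nonneg (mul_nonneg (norm_nonneg _)
          (mul_nonneg (norm_nonneg _) (pow_nonneg (pow_nonneg (norm_nonneg _) _) _))) _) (hδ l hl)) ?_
        rw [show c = _ from (hsize hu).symm]
        refine pow_lt_pow_left₀ (lt_of_le_of_lt (mul_le_mul_of_nonneg_left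
          (mul_le_mul_of_nonneg_left (pow_le_pow_left₀ (pow_nonneg (norm_nonneg _) _) (hy l hl) _)
            (norm_nonneg _)) ht.le) (mul_lt_mul_of_pos_left (Q.C_lt hB0 hout) ht))
          (mul_nonneg ht.le (mul_nonneg (norm_nonneg _) (pow_nonneg (pow_nonneg (norm_nonneg _) _) _)))
          (pow_ne_zero _ (Fact.out : p.Prime).ne_zero)
  simp only [A, Sum.elim_inl, norm_mul, norm_pow, hx] at key
  rw [pow_add p M E', pow_mul b', hb', Q.C_eq hB' m] at key
  exact (mul_lt_iff_lt_one_left hc).1 key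

end Pt

variable {F : FormalGroup (LT p n)} {hh : 1 ≤ h} {P : Ideal (LT p n)}
  {G : GoodPoint p n F h hh P e K} {T : Tower p n G} {Q : Pt p n h e K} (hQ : Q.x = G.x) {μ : ℝ}
  {k K0 N : ℕ} (H : Big Q G.rho μ k K0 N) {τ : PowerSeries K} (hτ : IsUnipotentCoordinate G τ)

include hQ H hτ in
theorem slots_between (hlo : Q.env.lev G.rho N < ‖T.pts (k + (N + 1) + 1) G.extra‖)
    (hhi : ‖T.pts (k + (N + 1) + 1) G.extra‖ < Q.env.lev G.rho (N + 1)) : Slots T τ := by
  classical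
  have hn := Q.n_pos
  have hl := H.large
  obtain ⟨ht, ht0, ht1, -⟩ := coeff_one_facts hQ hτ
  set t := PowerSeries.coeff 1 τ with htdef
  set idx := N + 2 + k with hidx
  rw [show k + (N + 1) + 1 = idx by omega] at hlo hhi
  set M := n * K0
  set b' := ‖T.pts idx G.extra‖
  have hlev0 := Q.env.lev_pos H.bounded.1 N
  have hb'0 : 0 < b' := hlev0.trans hlo
  have hb'1 : b' < 1 := T.small _ _
  set B' := b' ^ p ^ M with hB'def
  have hB' : 0 < B' := pow_pos hb'0 _
  have hB'1 : B' < 1 :=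
    pow_lt_one₀ hb'0.le hb'1 (pow_ne_zero _ (Fact.out : p.Prime).ne_zero)
  set B0 := Q.env.lev G.rho N ^ p ^ M with hB0def
  obtain ⟨hBm, hBm1, hBma, -, -⟩ := H.stage (M := M) le_rfl (Nat.le_add_right _ _)
  set Bm := Q.env.mxs B0 (N + 1) with hBmdef
  set BB := Q.env.lev G.rho (N + 1) ^ p ^ M with hBBdef
  have hBB : BB = Q.env.lev G.rho (N + 1 - K0) := H.lev_pow (by omega)
  have hBBpos : 0 < BB := pow_pos (Q.env.lev_pos H.bounded.1 _) _
  have hBBrho : G.rho < BB := by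
    rw [hBB]; exact Q.env.rho_lt_lev H.bounded.1 H.bounded.2.1 (by omega)
  obtain ⟨hpure1, hpure2, hpure3⟩ := Q.env.pure H.bounded hBBrho
  have hmxBB : Q.env.mx BB = B0 := by
    rw [hpure3, hBBdef, ← pow_mul, mul_comm, pow_mul]
    exact congrArg (fun a => a ^ p ^ M) (Q.env.lev_succ_pow H.bounded.1 N)
  have hB'lt : B' < BB := pow_lt_pow_left₀ hhi hb'0.le (pow_ne_zero _ (Fact.out : p.Prime).ne_zero)
  have hB0lt : B0 < B' := pow_lt_pow_left₀ hlo hlev0.le (pow_ne_zero _ (Fact.out : p.Prime).ne_zero)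
  have htop : Q.env.mxs BB (N + 2) = Bm := by
    rw [show N + 2 = N + 1 + 1 from rfl, Q.env.mxs_succ', hmxBB]
  obtain ⟨hwin1, hwin2⟩ := Q.env.window (B' := B') hBBpos (k := 0) (m := N + 2)
    (by rw [Q.env.mxs_succ, Q.env.mxs_zero, hmxBB]; exact hB0lt)
    (by rw [Q.env.mxs_zero]; exact hB'lt)
    (fun j hj => by
      rw [Nat.le_zero.1 hj, Q.env.mxs_zero]; exact ⟨hpure1, hpure2⟩)
    (fun j hj => by
      have hle : Q.env.mxs BB j ≤ Bm := by
        rw [← htop]
        exact Q.env.mxs_antitone hBBpos (hBB ▸ Q.env.lev_lt_one H.bounded.1 H.bounded.2.1 _) hj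
      exact ⟨(Q.env.deep (Q.env.mxs_pos hBBpos _) (hle.trans_lt hBma)).1,
        (Q.env.deep (Q.env.mxs_pos hBBpos _) (hle.trans_lt hBma)).2.1⟩)
  set X := Q.env.mxs B' (N + 2) with hXdef
  have hXpos : 0 < X := Q.env.mxs_pos hB' _
  have hXlt : X < Bm := by rw [← htop]; exact Q.env.mxs_lt_mxs hB' hB'lt _
  have hXgt : Q.env.mx Bm < X := by
    rw [hBmdef, ← Q.env.mxs_succ]
    exact Q.env.mxs_lt_mxs (H.base M).1 hB0lt _
  have hXa : X < ‖Q.env.a h‖ := hXlt.trans hBma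
  set σ := radius Q G.rho τ N M with hσdef
  have hσeq : σ = ‖t‖ * Bm := rfl
  obtain ⟨hσ0, hσ1⟩ := radius_facts hQ H hτ (M := M) le_rfl (Nat.le_add_right _ _)
  set w := Real.logb σ (‖t‖ * X) with hwdef
  have hw : σ ^ w = ‖t‖ * X := Real.rpow_logb hσ0 hσ1.ne (mul_pos ht0 hXpos)
  have hw1 : 1 < w := by
    rw [← Real.rpow_lt_rpow_left_iff_of_base_lt_one hσ0 hσ1, hw, Real.rpow_one]
    exact mul_lt_mul_of_pos_left hXlt ht0
  have hwP : w < ((p ^ h : ℕ) : ℝ) := by
    rw [← Real.rpow_lt_rpow_left_iff_of_base_lt_one hσ0 hσ1, hw, Real.rpow_natCast]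
    show (‖t‖ * Bm) ^ p ^ h < ‖t‖ * X
    have hd := (Q.deep_iterate ht hBm hBma (z := 0) (by simpa using hBm.le) 1).2
    rw [pow_one, Q.env.mxs_succ, Q.env.mxs_zero] at hd
    rw [← hd]
    exact mul_lt_mul_of_pos_left hXgt ht0
  let v : Fin (n - h) → ℝ := fun l => if l = G.extra then w * (((p ^ h) ^ k : ℕ) : ℝ) else 1
  let z : Res p n → K := fun α =>
    t * Q.env.L^[N + 2] (resHom G.x α * T.pts idx G.extra ^ p ^ M)
  have hvx : σ ^ v G.extra = (‖t‖ * X) ^ (p ^ h) ^ k := by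
    simp only [v, if_true]
    rw [Real.rpow_mul hσ0.le, hw, Real.rpow_natCast]
  have hext : ∀ α, ‖ev₁ τ (slotPt T α M G.extra) - z α ^ (p ^ h) ^ k‖ <
      (‖t‖ * X) ^ (p ^ h) ^ k ∧
      ‖ev₁ τ (slotPt T α M G.extra)‖ ≤ (‖t‖ * X) ^ (p ^ h) ^ k := by
    intro α
    have hzle : ‖resHom G.x α * T.pts idx G.extra ^ p ^ M‖ ≤ B' := by
      rw [norm_mul, norm_pow]
      exact mul_le_of_le_one_left hB'.le (norm_hom_le_one _ α)
    obtain ⟨hd, hd'⟩ := Q.deep_iterate ht hXpos hXa (Q.norm_iterate_L_le hzle (N + 2)) k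
    rw [← Function.iterate_add_apply, add_comm k (N + 2), ← hidx] at hd
    have hμ : μ ^ (p ^ h) ^ idx < Q.env.mxs B' idx := by
      have hanti := Q.env.mxs_antitone H.bounded.1 H.bounded.2.1
      have hlowX : Q.env.mxs G.rho (K0 + 2) ≤ X := by
        refine le_of_lt (lt_of_le_of_lt (le_of_eq ?_) hXgt)
        rw [hBmdef, hB0def, H.top_eq, ← Q.env.mxs_succ]
      rw [hidx, Q.env.mxs_add]
      calc μ ^ (p ^ h) ^ (N + 2 + k) ≤ μ ^ (p ^ h) ^ (N + 1) :=
            pow_le_pow_of_le_one H.μ_pos.le H.μ_lt.le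
              (Nat.pow_le_pow_right (pow_pos (Fact.out : p.Prime).pos _) (by omega))
        _ < Q.env.mxs G.rho (K0 + 3 + k) := H.small
        _ ≤ Q.env.mxs G.rho (K0 + 2 + k) := hanti (by omega)
        _ ≤ Q.env.mxs X k := by
          rw [Q.env.mxs_add]
          exact Q.env.mxs_mono (Q.env.mxs_pos H.bounded.1 _) hlowX k
    obtain ⟨hs, hs'⟩ := slot_lead T Q hQ H.μ_pos H.μ_lt H.dev hτ α M G.extra idx hb'0 hb'1 le_rfl
      (by
        rw [← hB'def, hidx, Q.env.mxs_add]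
        exact lt_of_le_of_lt (Q.env.mxs_antitone hXpos (hXlt.trans hBm1) (Nat.zero_le k)) hXa)
      hμ
    have hmx : Q.env.mxs (b' ^ p ^ M) idx = Q.env.mxs X k := by
      rw [hidx, Q.env.mxs_add]
    rw [hmx, hd'] at hs hs'
    rw [hd'] at hd
    refine ⟨?_, hs'⟩
    rw [← sub_add_sub_cancel]
    exact lt_of_le_of_lt (IsUltrametricDist.norm_add_le_max _ _) (max_lt hs hd)
  refine ⟨Res p n, inferInstance, fun α => α, fun _ => M, fun _ => σ, v, fun l => ?_,
    fun _ => ⟨hσ0, hσ1⟩, fun α l => ?_, ?_⟩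
  · simp only [v]
    split_ifs
    · exact one_le_mul_of_one_le_of_one_le hw1.le
        (by exact_mod_cast Nat.one_le_pow _ _ (pow_pos (Fact.out : p.Prime).pos _))
    · exact le_rfl
  · rcases eq_or_ne l G.extra with rfl | hne
    · rw [hvx]; exact (hext α).2
    · simp only [v, if_neg hne, Real.rpow_one]
      exact (slot_plain hQ H hτ le_rfl (Nat.le_add_right _ _) α l).2
  intro c b γ hγ hrel l₀ hl₀ hc₀
  set s := (insert G.extra G.good).filter (fun l => v l * (p : ℝ) ^ b l = c) with hs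
  suffices hall : ∀ l ∈ s, γ l = 0 from hall l₀ (mem_filter.2 ⟨hl₀, hc₀⟩)
  have hgood : ∀ l ∈ s, l ≠ G.extra → l ∈ G.good ∧ (p : ℝ) ^ b l = c := fun l hl hne => by
    refine ⟨(mem_insert.1 (mem_filter.1 hl).1).resolve_left hne, ?_⟩
    have := (mem_filter.1 hl).2
    rwa [show v l = 1 from if_neg hne, one_mul] at this
  set u := s.erase G.extra
  have hu : u ⊆ G.good := fun l hl => (hgood l (mem_of_mem_erase hl) (ne_of_mem_erase hl)).1
  have huc : ∀ l ∈ u, (p : ℝ) ^ b l = c := fun l hl =>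
    (hgood l (mem_of_mem_erase hl) (ne_of_mem_erase hl)).2
  suffices hx : G.extra ∈ s → γ G.extra = 0 by
    have hsum : ∀ α, ‖∑ l ∈ u, γ l * ev₁ τ (slotPt T α M l) ^ p ^ b l‖ < σ ^ c := by
      intro α
      by_cases hex : G.extra ∈ s
      · have : ‖∑ l ∈ s, γ l * ev₁ τ (slotPt T α M l) ^ p ^ b l‖ < σ ^ c := hrel α
        rw [← add_sum_erase s _ hex, hx hex, zero_mul, zero_add] at this
        exact this
      · rw [show u = s from erase_eq_of_notMem hex]
        exact hrel α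
    have hu0 := class_good hQ H hτ le_rfl (Nat.le_add_right _ _) hu b huc hγ hsum
    intro l hl
    rcases eq_or_ne l G.extra with rfl | hne
    · exact hx hl
    · exact hu0 l (mem_erase.2 ⟨hne, hl⟩)
  intro hex
  by_contra hγx
  set e0 := h * k + b G.extra with he0
  have hc : c = w * ((p ^ e0 : ℕ) : ℝ) := by
    rw [← (mem_filter.1 hex).2, show v G.extra = _ from if_pos rfl, he0, pow_add, pow_mul]
    push_cast
    ring
  have hσc : σ ^ c = (‖t‖ * X) ^ p ^ e0 := by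
    rw [hc, Real.rpow_mul hσ0.le, hw, Real.rpow_natCast]
  obtain ⟨β, hβ⟩ : ∃ β, u.Nonempty → 0 < β ∧ β < h ∧ w = ((p ^ β : ℕ) : ℝ) ∧
      ∀ l ∈ u, b l = e0 + β := by
    rcases u.eq_empty_or_nonempty with hu0 | ⟨l, hl⟩
    · exact ⟨0, fun hne => absurd hu0 hne.ne_empty⟩
    have hp1 : (1 : ℝ) < p := by exact_mod_cast (Fact.out : p.Prime).one_lt
    have hpe : (0 : ℝ) < (p : ℝ) ^ e0 := pow_pos (zero_lt_one.trans hp1) _
    have heq : (p : ℝ) ^ b l = w * (p : ℝ) ^ e0 := by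
      rw [huc l hl, hc, Nat.cast_pow]
    have hlo' : e0 < b l := (pow_lt_pow_iff_right₀ hp1).1 (by
      rw [heq]; exact (lt_mul_iff_one_lt_left hpe).2 hw1)
    have hhi' : b l < h + e0 := (pow_lt_pow_iff_right₀ hp1).1 (by
      rw [heq, pow_add (p : ℝ) h e0]
      refine mul_lt_mul_of_pos_right ?_ hpe
      rw [← Nat.cast_pow]; exact hwP)
    refine ⟨b l - e0, fun _ => ⟨by omega, by omega, ?_, fun i hi => ?_⟩⟩
    · rw [Nat.cast_pow, ← mul_left_inj' hpe.ne', ← heq, ← pow_add, Nat.sub_add_cancel hlo'.le]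
    · have := pow_right_injective₀ (zero_lt_one.trans hp1) hp1.ne'
        ((huc i hi).trans (huc l hl).symm)
      omega
  have hδx : ‖rt p h e0 (γ G.extra)‖ = 1 := by
    refine norm_fixed_eq hh (rt_fixed (hγ _) _) fun h0 => hγx ?_
    rw [← rt_pow hh (hγ G.extra) e0, h0, zero_pow (pow_ne_zero _ (Fact.out : p.Prime).ne_zero)]
  refine absurd hδx (ne_of_lt ?_)
  refine Q.top_zero (resHom G.x) hB' hB'1 (B0 := B0) (H.base M).1 (t := t) ht0 (N + 2) (N + 1) M
    hB'def.symm (hδx.le) (x := T.pts idx G.extra) rfl (u := u)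
    (δ := fun l => rt p h e0 (γ l)) (y := T.pts (N + 1)) β
    (fun l _ => norm_fixed_le hh (rt_fixed (hγ l) _))
    (fun l _ => pow_le_pow_left₀ (norm_nonneg _) (pts_le T Q hQ H.bounded l N) _)
    (fun hne => ?_) (fun hne => ?_) fun α => ?_
  · rw [← hXdef, ← hBmdef, ← hσeq, ← Real.rpow_natCast, ← (hβ hne).2.2.1, hw]
  · obtain ⟨hb0, hbh, -, -⟩ := hβ hne
    have e1 : Q.env.emin BB (N + 2) = Q.env.emin B0 (N + 1) + n := by
      rw [show N + 2 = N + 1 + 1 from rfl, Q.env.emin_succ', hmxBB, hpure2]; rfl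
    have e2 : Q.env.emax BB (N + 2) = Q.env.emax B0 (N + 1) + n := by
      rw [show N + 2 = N + 1 + 1 from rfl, Q.env.emax_succ', hmxBB, hpure1]; rfl
    rw [e1] at hwin1
    rw [e2] at hwin2
    have hEn : Q.env.n = n := rfl
    have hEh : Q.env.h = h := rfl
    have hle := Q.env.emin_le_emax B' (N + 2)
    have hle0 := Q.env.emin_le_emax B0 (N + 1)
    simp only [hEn, hEh, mul_zero, add_zero, zero_add, mul_one] at hwin1 hwin2
    omega
  · have hr : ‖∑ l ∈ s, γ l * ev₁ τ (slotPt T α M l) ^ p ^ b l‖ < (‖t‖ * X) ^ p ^ e0 := by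
      rw [← hσc]; exact hrel α
    have hred := reduce hh (mul_pos ht0 hXpos) s e0 γ
      (fun l => ev₁ τ (slotPt T α M l) ^ p ^ b l)
      (fun l => if l = G.extra then z α else
        (t * Q.env.L^[N + 1] (resHom G.x α * T.pts (N + 1) l ^ p ^ M)) ^ p ^ β) hγ
      (fun l hl => by
        split_ifs with he
        · subst he
          rw [show p ^ e0 = (p ^ h) ^ k * p ^ b G.extra by rw [he0, pow_add, pow_mul p h k],
            pow_mul (z α), pow_mul (‖t‖ * X)]
          exact norm_pow_sub_lt (hext α).1 _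
        · have hlu : l ∈ u := mem_erase.2 ⟨he, hl⟩
          obtain ⟨-, -, hwβ, hbl⟩ := hβ ⟨l, hlu⟩
          rw [hbl l hlu, ← hw, hwβ, Real.rpow_natCast, add_comm e0 β, pow_add p β e0,
            ← pow_mul _ (p ^ β) (p ^ e0), ← pow_mul σ (p ^ β) (p ^ e0), ← pow_add]
          exact norm_pow_sub_lt (slot_plain hQ H hτ le_rfl (Nat.le_add_right _ _) α l).1 _) hr
    rw [← add_sum_erase s _ hex, if_pos rfl] at hred
    rw [sum_congr rfl fun l hl => by rw [if_neg (ne_of_mem_erase hl)]] at hred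
    exact hred

end Vale.Agent.P217.Newton
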