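import Vale.Agent.P217.Newton.Envelope

/-!
P217, Newton half: the pure and the deep stages of the envelope, windows of dominant exponents.
-/

open Finset

noncomputable section

namespace Vale.Agent.P217.Newton

/-- A function with steps at most one and positive total increase has a step equal to one. -/
theorem exists_step (f : ℕ → ℕ) (n : ℕ) (hstep : ∀ i < n, f (i + 1) ≤ f i + 1) (h : f 0 < f n) :
    ∃ i < n, f (i + 1) = f i + 1 := by
  by_contra hc
  push Not at hc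
  have : ∀ i ≤ n, f i ≤ f 0 := by
    intro i hi
    induction i with
    | zero => exact le_rfl
    | succ i ih =>
      have h1 := hstep i (by omega)
      have h2 := hc i (by omega)
      have h3 := ih (by omega)
      omega
  exact absurd (this n le_rfl) (not_le.2 h)

namespace Env

variable {K : Type} [NormedField K] [IsUltrametricDist K] (E : Env K)

/-- The bound coming from the roots. -/
def Bounded (rho : ℝ) : Prop :=
  0 < rho ∧ rho < 1 ∧ ∀ i, E.h ≤ i → i < E.n → ‖E.a i‖ ≤ rho ^ (E.p ^ E.n - E.p ^ i)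

theorem pow_lt_pow_n {i : ℕ} (hi : i < E.n) : E.p ^ i < E.p ^ E.n :=
  Nat.pow_lt_pow_right E.one_lt_p hi

theorem pure {rho B : ℝ} (hE : E.Bounded rho) (hB : rho < B) :
    E.imax B = E.n ∧ E.imin B = E.n ∧ E.mx B = B ^ E.p ^ E.n := by
  obtain ⟨h1, h2, h3⟩ := hE
  have h := E.single_top (B := B) E.n_mem fun i hi hne => ?_
  · refine ⟨h.1, h.2.1, h.2.2.trans ?_⟩
    rw [W, E.a_n, norm_one, one_mul]
  · obtain ⟨hl, hu⟩ := E.mem_S.1 hi
    have hlt := E.pow_lt_pow_n (lt_of_le_of_ne hu hne)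
    rw [W, W, E.a_n, norm_one, one_mul]
    refine lt_of_le_of_lt (mul_le_mul_of_nonneg_right (h3 i hl (lt_of_le_of_ne hu hne))
      (pow_nonneg (h1.trans hB).le _)) ?_
    calc rho ^ (E.p ^ E.n - E.p ^ i) * B ^ E.p ^ i
        < B ^ (E.p ^ E.n - E.p ^ i) * B ^ E.p ^ i :=
          mul_lt_mul_of_pos_right (pow_lt_pow_left₀ hB h1.le (by omega))
            (pow_pos (h1.trans hB) _)
      _ = B ^ E.p ^ E.n := by rw [← pow_add, Nat.sub_add_cancel hlt.le]

theorem mx_rho {rho : ℝ} (hE : E.Bounded rho) : E.mx rho = rho ^ E.p ^ E.n := by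
  refine le_antisymm (sup'_le _ _ fun i hi => ?_) (E.pow_le_mx rho)
  obtain ⟨hl, hu⟩ := E.mem_S.1 hi
  rcases hu.lt_or_eq with hu | rfl
  · refine (mul_le_mul_of_nonneg_right (hE.2.2 i hl hu) (pow_nonneg hE.1.le _)).trans_eq ?_
    rw [← pow_add, Nat.sub_add_cancel (E.pow_lt_pow_n hu).le]
  · rw [W, E.a_n, norm_one, one_mul]

theorem mx_le_rho {rho B : ℝ} (hE : E.Bounded rho) (hB : 0 ≤ B) (h : B ≤ rho) :
    E.mx B ≤ rho ^ E.p ^ E.n :=
  (E.mx_mono hB h).trans (E.mx_rho hE).le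

theorem deep {B : ℝ} (hB : 0 < B) (h : B < ‖E.a E.h‖) :
    E.imax B = E.h ∧ E.imin B = E.h ∧ E.mx B = ‖E.a E.h‖ * B ^ E.p ^ E.h := by
  refine E.single_top E.h_mem fun i hi hne => ?_
  obtain ⟨hl, hu⟩ := E.mem_S.1 hi
  have hlt : E.p ^ E.h < E.p ^ i := Nat.pow_lt_pow_right E.one_lt_p (lt_of_le_of_ne hl (Ne.symm hne))
  have hB1 : B < 1 := lt_of_lt_of_le h (E.norm_a_le E.h_mem)
  calc E.W B i ≤ 1 * B ^ E.p ^ i :=
        mul_le_mul_of_nonneg_right (E.norm_a_le hi) (pow_nonneg hB.le _)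
    _ ≤ B ^ (E.p ^ E.h + 1) := by
      rw [one_mul]
      exact pow_le_pow_of_le_one hB.le hB1.le hlt
    _ = B * B ^ E.p ^ E.h := pow_succ' _ _
    _ < E.W B E.h := mul_lt_mul_of_pos_right h (pow_pos hB _)

theorem mx_le_sq {B : ℝ} (hB : 0 ≤ B) (hB1 : B ≤ 1) : E.mx B ≤ B ^ 2 :=
  sup'_le _ _ fun i hi => by
    calc E.W B i ≤ 1 * B ^ E.p ^ i :=
          mul_le_mul_of_nonneg_right (E.norm_a_le hi) (pow_nonneg hB _)
      _ ≤ B ^ 2 := by
        rw [one_mul]
        exact pow_le_pow_of_le_one hB hB1 (E.hp.trans (E.p_le_pow hi))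

theorem exists_mxs_lt {B : ℝ} (hB : 0 < B) (hB1 : B < 1) {c : ℝ} (hc : 0 < c) :
    ∃ j, E.mxs B j < c := by
  obtain ⟨j, hj⟩ := exists_pow_lt_of_lt_one hc hB1
  refine ⟨j, lt_of_le_of_lt ?_ hj⟩
  have key : ∀ j, E.mxs B j ≤ B ^ (j + 1) := by
    intro j
    induction j with
    | zero => simp [mxs_zero]
    | succ j ih =>
      rw [mxs_succ]
      calc E.mx (E.mxs B j) ≤ E.mxs B j ^ 2 :=
            E.mx_le_sq (E.mxs_pos hB j).le (E.mxs_lt_one hB hB1 j).le
        _ = E.mxs B j * E.mxs B j := sq _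
        _ ≤ B ^ (j + 1) * B :=
            mul_le_mul ih (E.mxs_antitone hB hB1 (Nat.zero_le j)) (E.mxs_pos hB j).le
              (pow_nonneg hB.le _)
        _ = B ^ (j + 1 + 1) := (pow_succ _ _).symm
  exact (key j).trans (pow_le_pow_of_le_one hB.le hB1.le (by omega))

theorem emax_mono {B B' : ℝ} (hB' : 0 < B') (h : B' ≤ B) (m : ℕ) : E.emax B' m ≤ E.emax B m :=
  sum_le_sum fun j _ => E.imax_le_imax (E.mxs_pos hB' j) (E.mxs_mono hB' h j)

theorem emax_mx (B : ℝ) (m : ℕ) :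
    E.emax (E.mx B) m + E.imax B = E.emax B m + E.imax (E.mxs B m) := by
  have h1 : E.emax B (m + 1) = E.emax (E.mx B) m + E.imax B := by
    simp only [emax, sum_range_succ', mxs_succ', mxs_zero]
  have h2 : E.emax B (m + 1) = E.emax B m + E.imax (E.mxs B m) := sum_range_succ _ _
  omega

/-- The windows of an input squeezed between two consecutive iterates of another one. -/
theorem window {B B' : ℝ} (hB : 0 < B) {k m : ℕ}
    (hlo : E.mxs B (k + 1) < B') (hhi : B' < E.mxs B k)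
    (hpure : ∀ j ≤ k, E.imax (E.mxs B j) = E.n ∧ E.imin (E.mxs B j) = E.n)
    (hdeep : ∀ j, m ≤ j → E.imax (E.mxs B j) = E.h ∧ E.imin (E.mxs B j) = E.h) :
    E.emax B' m + E.n * k ≤ E.emin B m + E.h * k ∧
      E.emax B m + E.h * (k + 1) ≤ E.emin B' m + E.n * (k + 1) := by
  have hB' : 0 < B' := (E.mxs_pos hB (k + 1)).trans hlo
  have h1 : E.emax B' m ≤ ∑ j ∈ range m, E.imin (E.mxs B (k + j)) := by
    refine sum_le_sum fun j _ => ?_
    rw [E.mxs_add]
    exact E.imax_le_imin (E.mxs_pos hB' j) (E.mxs_lt_mxs hB' hhi j)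
  have h2 : ∑ j ∈ range m, E.imax (E.mxs B (k + 1 + j)) ≤ E.emin B' m := by
    refine sum_le_sum fun j _ => ?_
    rw [E.mxs_add]
    exact E.imax_le_imin (E.mxs_pos (E.mxs_pos hB _) j)
      (E.mxs_lt_mxs (E.mxs_pos hB _) hlo j)
  have e1 : E.n * k + ∑ j ∈ range m, E.imin (E.mxs B (k + j)) = E.emin B m + E.h * k := by
    have ha : E.emin B (k + m) = E.n * k + ∑ j ∈ range m, E.imin (E.mxs B (k + j)) := by
      rw [emin, sum_range_add, sum_congr rfl fun j hj => (hpure j (mem_range.1 hj).le).2, sum_const,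
        card_range, smul_eq_mul, mul_comm]
    have hb : E.emin B (m + k) = E.emin B m + E.h * k := by
      rw [emin, emin, sum_range_add, sum_congr rfl fun j _ => (hdeep (m + j) (by omega)).2,
        sum_const, card_range, smul_eq_mul, mul_comm k]
    rw [← ha, add_comm k m, hb]
  have e2 : E.n * (k + 1) + ∑ j ∈ range m, E.imax (E.mxs B (k + 1 + j)) =
      E.emax B m + E.h * (k + 1) := by
    have ha : E.emax B (k + 1 + m) =
        E.n * (k + 1) + ∑ j ∈ range m, E.imax (E.mxs B (k + 1 + j)) := by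
      rw [emax, sum_range_add, sum_congr rfl fun j hj => (hpure j (by
        have := mem_range.1 hj; omega)).1, sum_const, card_range, smul_eq_mul, mul_comm]
    have hb : E.emax B (m + (k + 1)) = E.emax B m + E.h * (k + 1) := by
      rw [emax, emax, sum_range_add, sum_congr rfl fun j _ => (hdeep (m + j) (by omega)).1,
        sum_const, card_range, smul_eq_mul, mul_comm (k + 1)]
    rw [← ha, add_comm (k + 1) m, hb]
  omega

/-- The norms `rho ^ (1 / q ^ j)`. -/
def lev (rho : ℝ) (j : ℕ) : ℝ := rho ^ ((1 : ℝ) / ((E.p : ℝ) ^ E.n) ^ j)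

theorem lev_zero (rho : ℝ) : E.lev rho 0 = rho := by simp [lev]

theorem lev_pos {rho : ℝ} (h : 0 < rho) (j : ℕ) : 0 < E.lev rho j := Real.rpow_pos_of_pos h _

theorem lev_lt_one {rho : ℝ} (h : 0 < rho) (h1 : rho < 1) (j : ℕ) : E.lev rho j < 1 :=
  Real.rpow_lt_one h.le h1 (div_pos one_pos (pow_pos (pow_pos (by
    have := E.hp; exact_mod_cast (show 0 < E.p by omega)) _) _))

theorem lev_succ_pow {rho : ℝ} (h : 0 < rho) (j : ℕ) :
    E.lev rho (j + 1) ^ E.p ^ E.n = E.lev rho j := by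
  have hp : (E.p : ℝ) ≠ 0 := by have := E.hp; exact_mod_cast (show E.p ≠ 0 by omega)
  rw [lev, lev, ← Real.rpow_natCast, ← Real.rpow_mul h.le]
  congr 1
  push_cast
  field_simp
  ring

theorem lev_add_pow {rho : ℝ} (h : 0 < rho) (j : ℕ) :
    ∀ i, E.lev rho (j + i) ^ E.p ^ (E.n * i) = E.lev rho j
  | 0 => by simp
  | i + 1 => by
    rw [← add_assoc, mul_add, mul_one, add_comm (E.n * i), pow_add, pow_mul,
      lev_succ_pow E h, lev_add_pow h j i]

theorem lev_lt_lev {rho : ℝ} (h : 0 < rho) (h1 : rho < 1) (j : ℕ) :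
    E.lev rho j < E.lev rho (j + 1) := by
  rw [← E.lev_succ_pow h j]
  conv_rhs => rw [← pow_one (E.lev rho (j + 1))]
  exact pow_lt_pow_right_of_lt_one₀ (E.lev_pos h _) (E.lev_lt_one h h1 _)
    (Nat.one_lt_pow (by have := E.hhn; omega) E.one_lt_p)

theorem lev_strictMono {rho : ℝ} (h : 0 < rho) (h1 : rho < 1) : StrictMono (E.lev rho) :=
  strictMono_nat_of_lt_succ (E.lev_lt_lev h h1)

theorem rho_lt_lev {rho : ℝ} (h : 0 < rho) (h1 : rho < 1) {j : ℕ} (hj : 0 < j) :
    rho < E.lev rho j := by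
  conv_lhs => rw [← E.lev_zero rho]
  exact E.lev_strictMono h h1 hj

/-- Going down the levels. -/
theorem mxs_lev {rho : ℝ} (hE : E.Bounded rho) (j : ℕ) :
    ∀ i, E.mxs (E.lev rho (j + i)) i = E.lev rho j
  | 0 => rfl
  | i + 1 => by
    rw [mxs_succ', ← add_assoc, (E.pure hE (E.rho_lt_lev hE.1 hE.2.1 (Nat.succ_pos _))).2.2,
      E.lev_succ_pow hE.1, mxs_lev hE j i]

end Env

end Vale.Agent.P217.Newton
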