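import Vale.Agent.P217.Newton.Const
import Vale.Agent.P217.Newton.Stages
import Vale.Agent.P217.EvalLemmas
import Vale.Agent.P217.EvalLemmasBounds

/-!
P217, Newton half: the `p`-series at a point is its linearised polynomial up to a strictly smaller
error.
-/

open Finset

noncomputable section

namespace Vale.Agent.P217.Newton

variable {p n : ℕ} [Fact p.Prime]

/-- The facts used about the point. -/
structure Pt (p n h : ℕ) [Fact p.Prime] (e : PowerSeries (LT p n)) (K : Type) [NormedField K] where
  x : LT p n →+* K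
  hh : 1 ≤ h
  hhn : h < n
  facts : PSeriesFacts p n e
  char : CharP K p
  norm_le : ∀ a, ‖x a‖ ≤ 1
  norm_lt : ∀ a ∈ IsLocalRing.maximalIdeal (LT p n), ‖x a‖ < 1
  x_low : ∀ a ∈ heightIdeal p n h, x a = 0
  x_h : x (par p n h) ≠ 0

theorem par_mem_maximalIdeal {i : ℕ} (hi : i < n) :
    par p n i ∈ IsLocalRing.maximalIdeal (LT p n) := by
  rw [IsLocalRing.mem_maximalIdeal, mem_nonunits_iff, MvPowerSeries.isUnit_iff_constantCoeff]
  intro hu
  rcases Nat.eq_zero_or_pos i with rfl | hpos
  · have h0 : MvPowerSeries.constantCoeff (par p n 0) = (p : WittVector p (Res p n)) := by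
      rw [par, dif_neg (by omega), if_pos rfl, map_natCast]
    rw [h0] at hu
    exact not_isUnit_zero (M₀ := Res p n) (by simpa using hu.map WittVector.constantCoeff)
  · rw [par, dif_pos ⟨hpos, hi⟩, MvPowerSeries.constantCoeff_X] at hu
    exact not_isUnit_zero hu

theorem par_n (hn : 1 ≤ n) : par p n n = 1 := by
  rw [par, dif_neg (by omega), if_neg (by omega)]

/-- A coefficient with finitely many monomials is a finite sum. -/
theorem eq_sum_monomial {σ R : Type*} [CommRing R] (a : MvPowerSeries σ R) (s : Finset (σ →₀ ℕ))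
    (h : ∀ d, MvPowerSeries.coeff d a ≠ 0 → d ∈ s) :
    a = ∑ d ∈ s, MvPowerSeries.monomial d (MvPowerSeries.coeff d a) := by
  classical
  refine MvPowerSeries.ext fun m => ?_
  rw [map_sum]
  simp only [MvPowerSeries.coeff_monomial]
  rw [sum_ite_eq]
  split_ifs with hm
  · rfl
  · by_contra hne
    exact hm (h m hne)

theorem hom_monomial {σ R S : Type*} [CommRing R] [CommRing S] (x : MvPowerSeries σ R →+* S)
    (d : σ →₀ ℕ) (c : R) :
    x (MvPowerSeries.monomial d c) =
      x (MvPowerSeries.C c) * d.prod fun i e => x (MvPowerSeries.X i) ^ e := by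
  have h : x.comp (MvPolynomial.coeToMvPowerSeries.ringHom) =
      MvPolynomial.eval₂Hom (x.comp MvPowerSeries.C) (fun i => x (MvPowerSeries.X i)) :=
    MvPolynomial.ringHom_ext (fun r => by simp) (fun i => by simp)
  have := RingHom.congr_fun h (MvPolynomial.monomial d c)
  simpa using this

variable {h : ℕ} {e : PowerSeries (LT p n)} {K : Type} [NormedField K] [IsUltrametricDist K]

namespace Pt

variable (G : Pt p n h e K)

/-- The envelope data at the point. -/
def env : Env K where
  p := p
  h := h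
  n := n
  a i := G.x (par p n i)
  hp := (Fact.out : p.Prime).two_le
  hh := G.hh
  hhn := G.hhn
  a_n := by rw [par_n (G.hh.trans G.hhn.le), map_one]
  a_h := G.x_h
  a_lt i _ hi := G.norm_lt _ (par_mem_maximalIdeal hi)

/-- The `p`-series at the point. -/
def es : PowerSeries K := PowerSeries.map G.x e

theorem coeff_es (b : ℕ) : PowerSeries.coeff b G.es = G.x (PowerSeries.coeff b e) :=
  PowerSeries.coeff_map _ _ _

theorem es_integral : IntegralSeries (G.es : PowerSeries K) :=
  IntegralSeries.map G.x G.norm_le e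

/-- The main part of the coefficient in degree `b`. -/
def main (b : ℕ) : K := ∑ i ∈ G.env.S, if b = p ^ i then G.env.a i else 0

theorem main_pow {i : ℕ} (hi : i ∈ G.env.S) : G.main (p ^ i) = G.env.a i := by
  rw [main, sum_eq_single i (fun j _ hne => if_neg fun hc =>
      hne (Nat.pow_right_injective (Fact.out : p.Prime).two_le hc).symm) (fun hc => absurd hi hc),
    if_pos rfl]

theorem main_of_not {b : ℕ} (h : ∀ i ∈ G.env.S, b ≠ p ^ i) : G.main b = 0 :=
  sum_eq_zero fun i hi => if_neg (h i hi)

theorem x_X_low (l : Fin (n - 1)) (hl : l.val + 1 < h) : G.x (MvPowerSeries.X l) = 0 := by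
  refine G.x_low _ (Ideal.subset_span ⟨l.val + 1, hl, ?_⟩)
  have := l.isLt
  rw [par, dif_pos ⟨Nat.le_add_left 1 _, by omega⟩]
  exact congrArg MvPowerSeries.X (Fin.ext (by simp))

theorem x_X (l : Fin (n - 1)) : G.x (MvPowerSeries.X l) = G.env.a (l.val + 1) := by
  have := l.isLt
  show G.x _ = G.x (par p n (l.val + 1))
  rw [par, dif_pos ⟨Nat.le_add_left 1 _, by omega⟩]
  exact congrArg (fun y => G.x (MvPowerSeries.X y)) (Fin.ext (by simp))

theorem x_C (w : WittVector p (Res p n)) :
    letI := G.char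
    G.x (MvPowerSeries.C w) = resHom G.x (WittVector.constantCoeff w) :=
  letI := G.char
  (resHom_constantCoeff G.x w).symm

/-- The coefficient bound behind the leading term. -/
theorem coeff_sub_main {B : ℝ} (hB : 0 < B) (hB1 : B < 1) (b : ℕ) :
    ‖G.x (PowerSeries.coeff b e) - G.main b‖ * B ^ b ≤
      max B (G.env.mx B / B) * G.env.mx B := by
  classical
  have := G.char
  set E := G.env
  have hmx : 0 < E.mx B := E.mx_pos hB
  set r := E.mx B / B
  have hr : 0 < r := div_pos hmx hB
  have hr1 : r ≤ 1 := by rw [div_le_one hB]; exact (E.mx_lt_self hB hB1).le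
  have hrB : r * B = E.mx B := div_mul_cancel₀ _ hB.ne'
  have hη : 0 ≤ max B r * E.mx B := mul_nonneg (hB.le.trans (le_max_left _ _)) hmx.le
  set a := PowerSeries.coeff b e with ha
  have hgrad : ∀ d : Fin (n - 1) →₀ ℕ, MvPowerSeries.coeff d a ≠ 0 →
      ∑ l, d l * (p ^ (l.val + 1) - 1) ≤ b - 1 := fun d hd => G.facts.grading b d hd
  have h2 : ∀ l : Fin (n - 1), 2 ≤ p ^ (l.val + 1) := fun l =>
    (Fact.out : p.Prime).two_le.trans (Nat.le_self_pow (by omega) p)
  set s : Finset (Fin (n - 1) →₀ ℕ) := Finset.Iic (Finsupp.equivFunOnFinite.symm fun _ => b)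
  have hs : ∀ d, MvPowerSeries.coeff d a ≠ 0 → d ∈ s := by
    intro d hd
    refine mem_Iic.2 fun l => ?_
    have h1 := (single_le_sum (f := fun l => d l * (p ^ (l.val + 1) - 1)) (fun _ _ => Nat.zero_le _)
      (mem_univ l)).trans (hgrad d hd)
    have h3 : d l ≤ d l * (p ^ (l.val + 1) - 1) := Nat.le_mul_of_pos_right _ (by have := h2 l; omega)
    simp only [Finsupp.coe_equivFunOnFinite_symm]
    omega
  have h0mem : (0 : Fin (n - 1) →₀ ℕ) ∈ s := mem_Iic.2 fun l => Nat.zero_le _
  rw [eq_sum_monomial a s hs, map_sum]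
  -- the main part sits in one monomial
  set mc : (Fin (n - 1) →₀ ℕ) → K := fun d =>
    if d = 0 then (if b = p ^ n then 1 else 0)
    else ∑ l : Fin (n - 1), if d = Finsupp.single l 1 ∧ b = p ^ (l.val + 1) ∧ h ≤ l.val + 1
      then E.a (l.val + 1) else 0
  have hsum : G.main b = ∑ d ∈ s, mc d := by
    by_cases hb : ∃ i ∈ E.S, b = p ^ i
    · obtain ⟨i, hi, rfl⟩ := hb
      rw [G.main_pow hi]
      obtain ⟨hli, hin⟩ := E.mem_S.1 hi
      rcases hin.lt_or_eq with hlt | rfl
      · let l₀ : Fin (n - 1) := ⟨i - 1, by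
          have : h ≤ i := hli
          have := G.hh
          have : i < n := hlt
          omega⟩
        have hl₀ : l₀.val + 1 = i := by
          have : h ≤ i := hli
          have := G.hh
          simp only [l₀]
          omega
        have hmem : Finsupp.single l₀ 1 ∈ s := mem_Iic.2 fun l => by
          rw [Finsupp.coe_equivFunOnFinite_symm, Finsupp.single_apply]
          split_ifs
          · exact Nat.one_le_iff_ne_zero.2 (pow_ne_zero _ (Fact.out : p.Prime).ne_zero)
          · exact Nat.zero_le _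
        rw [sum_eq_single (Finsupp.single l₀ 1) ?_ (fun hc => absurd hmem hc)]
        · simp only [mc, if_neg (Finsupp.single_ne_zero.2 one_ne_zero)]
          rw [sum_eq_single l₀ (fun l _ hne => if_neg fun hc =>
            hne ((Finsupp.single_left_inj one_ne_zero).1 hc.1).symm) (fun hc => absurd (mem_univ _) hc),
            if_pos ⟨rfl, by rw [hl₀], hl₀ ▸ hli⟩, hl₀]
        · intro d _ hne
          simp only [mc]
          split_ifs with hd0 hbn
          · exact absurd (Nat.pow_right_injective (Fact.out : p.Prime).two_le hbn) (Nat.ne_of_lt hlt)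
          · rfl
          · refine sum_eq_zero fun l _ => if_neg ?_
            rintro ⟨rfl, hb, -⟩
            have := Nat.pow_right_injective (Fact.out : p.Prime).two_le hb
            exact hne (congrArg (fun l => Finsupp.single l 1) (Fin.ext (by simp [l₀]; omega)))
      · rw [sum_eq_single 0 ?_ (fun hc => absurd h0mem hc)]
        · simp [mc, E, Pt.env]
          exact E.a_n
        · intro d _ hd0
          simp only [mc, if_neg hd0]
          refine sum_eq_zero fun l _ => if_neg ?_
          rintro ⟨-, hb, -⟩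
          have := Nat.pow_right_injective (Fact.out : p.Prime).two_le hb
          have := l.isLt
          simp [E, Pt.env] at *
          omega
    · push Not at hb
      rw [G.main_of_not hb, sum_eq_zero]
      intro d _
      simp only [mc]
      split_ifs with hd0 hbn
      · exact absurd hbn (hb n E.n_mem)
      · rfl
      · refine sum_eq_zero fun l _ => if_neg ?_
        rintro ⟨-, hbl, hhl⟩
        exact hb (l.val + 1) (E.mem_S.2 ⟨hhl, by show l.val + 1 ≤ n; have := l.isLt; omega⟩) hbl
  rw [hsum, ← sum_sub_distrib, ← le_div_iff₀ (pow_pos hB b)]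
  refine norm_sum_le _ _ (div_nonneg hη (pow_nonneg hB.le b)) fun d _ => ?_
  rw [le_div_iff₀ (pow_pos hB b), hom_monomial, G.x_C]
  set c := WittVector.constantCoeff (MvPowerSeries.coeff d a)
  by_cases hd0 : d = 0
  · subst hd0
    have hc : c = if b = p ^ n then 1 else 0 := by
      have hsp := congrArg (PowerSeries.coeff b) G.facts.special
      rw [PowerSeries.coeff_map, PowerSeries.coeff_X_pow, red, RingHom.comp_apply,
        ← MvPowerSeries.coeff_zero_eq_constantCoeff_apply] at hsp
      exact hsp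
    rw [Finsupp.prod_zero_index, mul_one, hc, apply_ite (resHom G.x), map_one, map_zero]
    simp only [mc, if_true, sub_self, norm_zero, zero_mul]
    exact hη
  by_cases hco : MvPowerSeries.coeff d a = 0
  · have hc : c = 0 := by simp [c, hco]
    have hmc : mc d = 0 := by
      simp only [mc, if_neg hd0]
      refine sum_eq_zero fun l _ => if_neg ?_
      rintro ⟨rfl, hb, -⟩
      have := G.facts.linear l
      rw [← hb] at this
      change c = 1 at this
      exact zero_ne_one (hc.symm.trans this)
    rw [hc, map_zero, zero_mul, hmc, sub_self, norm_zero, zero_mul]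
    exact hη
  -- a monomial with a zero variable vanishes
  by_cases hlow : ∃ l, d l ≠ 0 ∧ l.val + 1 < h
  · obtain ⟨l, hl, hlh⟩ := hlow
    have hprod : (d.prod fun i k => G.x (MvPowerSeries.X i) ^ k) = 0 :=
      prod_eq_zero (Finsupp.mem_support_iff.2 hl) (by simp [G.x_X_low l hlh, hl])
    have hmc : mc d = 0 := by
      simp only [mc, if_neg hd0]
      refine sum_eq_zero fun l' _ => if_neg ?_
      rintro ⟨rfl, -, hh'⟩
      rcases eq_or_ne l' l with rfl | hne
      · omega
      · exact hl (Finsupp.single_eq_of_ne (Ne.symm hne))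
    rw [hprod, mul_zero, hmc, sub_self, norm_zero, zero_mul]
    exact hη
  push Not at hlow
  set D := ∑ l, d l with hD
  set S := ∑ l, d l * (p ^ (l.val + 1) - 1) with hS
  have hSb : S ≤ b - 1 := hgrad d hco
  have hDpos : 1 ≤ D := by
    obtain ⟨l, hl⟩ : ∃ l, d l ≠ 0 := by
      by_contra hc; push Not at hc; exact hd0 (Finsupp.ext hc)
    exact (Nat.one_le_iff_ne_zero.2 hl).trans (single_le_sum (fun i _ => Nat.zero_le (d i)) (mem_univ l))
  have hDS : D ≤ S := sum_le_sum fun l _ =>
    Nat.le_mul_of_pos_right _ (by have := h2 l; omega)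
  have hb1 : S + 1 ≤ b := by omega
  set u := d.prod fun i k => G.x (MvPowerSeries.X i) ^ k
  have hu : ‖u‖ * B ^ S ≤ r ^ D := by
    have key : ‖u‖ * B ^ (D + S) ≤ r ^ D * B ^ D := by
      have e1 : D + S = ∑ l, d l * p ^ (l.val + 1) := by
        rw [hD, hS, ← sum_add_distrib]
        refine sum_congr rfl fun l _ => ?_
        conv_rhs => rw [← Nat.sub_add_cancel (show 1 ≤ p ^ (l.val + 1) by have := h2 l; omega)]
        ring
      rw [← mul_pow, hrB, e1, hD, ← prod_pow_eq_pow_sum, ← prod_pow_eq_pow_sum]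
      simp only [u]
      rw [Finsupp.prod_fintype _ _ (fun l => pow_zero _), norm_prod, ← prod_mul_distrib]
      refine prod_le_prod (fun l _ => mul_nonneg (norm_nonneg _) (pow_nonneg hB.le _)) fun l _ => ?_
      rw [norm_pow, mul_comm (d l), pow_mul, ← mul_pow, G.x_X]
      rcases Nat.eq_zero_or_pos (d l) with h0 | hpos
      · simp [h0]
      · exact pow_le_pow_left₀ (mul_nonneg (norm_nonneg _) (pow_nonneg hB.le _))
          (E.W_le_mx B (E.mem_S.2 ⟨hlow l hpos.ne', by show l.val + 1 ≤ n; have := l.isLt; omega⟩)) _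
    rw [pow_add, mul_comm (B ^ D), ← mul_assoc] at key
    exact le_of_mul_le_mul_right key (pow_pos hB D)
  have hbound : ∀ t : K, ‖t‖ ≤ 1 → (1 < D ∨ S + 1 < b) →
      ‖t * u‖ * B ^ b ≤ max B r * E.mx B := by
    intro t ht hcase
    have hsplit : ‖t * u‖ * B ^ b ≤ r ^ D * B ^ (b - S) := by
      conv_lhs => rw [← Nat.add_sub_cancel' (show S ≤ b by omega), pow_add, ← mul_assoc]
      refine mul_le_mul_of_nonneg_right (le_trans ?_ hu) (pow_nonneg hB.le _)
      rw [norm_mul, mul_assoc]
      exact mul_le_of_le_one_left (mul_nonneg (norm_nonneg _) (pow_nonneg hB.le _)) ht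
    refine hsplit.trans ?_
    rcases hcase with hc | hc
    · calc r ^ D * B ^ (b - S) ≤ r ^ 2 * B ^ 1 :=
            mul_le_mul (pow_le_pow_of_le_one hr.le hr1 hc) (pow_le_pow_of_le_one hB.le hB1.le (by omega))
              (pow_nonneg hB.le _) (pow_nonneg hr.le _)
        _ = r * E.mx B := by rw [← hrB]; ring
        _ ≤ _ := mul_le_mul_of_nonneg_right (le_max_right _ _) hmx.le
    · calc r ^ D * B ^ (b - S) ≤ r ^ 1 * B ^ 2 :=
            mul_le_mul (pow_le_pow_of_le_one hr.le hr1 hDpos) (pow_le_pow_of_le_one hB.le hB1.le (by omega))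
              (pow_nonneg hB.le _) (pow_nonneg hr.le _)
        _ = B * E.mx B := by rw [← hrB]; ring
        _ ≤ _ := mul_le_mul_of_nonneg_right (le_max_left _ _) hmx.le
  have hc1 : ‖resHom G.x c‖ ≤ 1 := norm_hom_le_one _ _
  by_cases hlin : ∃ l, d = Finsupp.single l 1 ∧ b = p ^ (l.val + 1)
  · obtain ⟨l, rfl, hbl⟩ := hlin
    have hlh : h ≤ l.val + 1 := hlow l (by simp)
    have hc : c = 1 := by
      have := G.facts.linear l
      rw [← hbl] at this
      exact this
    have hmc : mc (Finsupp.single l 1) = E.a (l.val + 1) := by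
      simp only [mc, if_neg hd0]
      rw [sum_eq_single l (fun l' _ hne => if_neg fun hc =>
        hne ((Finsupp.single_left_inj one_ne_zero).1 hc.1).symm) (fun hc => absurd (mem_univ _) hc),
        if_pos ⟨rfl, hbl, hlh⟩]
    have hu1 : u = E.a (l.val + 1) := by
      simp [u, G.x_X, E]
    rw [hc, map_one, one_mul, hu1, hmc, sub_self, norm_zero, zero_mul]
    exact hη
  · have hmc : mc d = 0 := by
      simp only [mc, if_neg hd0]
      exact sum_eq_zero fun l _ => if_neg fun hc => hlin ⟨l, hc.1, hc.2.1⟩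
    rw [hmc, sub_zero]
    refine hbound _ hc1 ?_
    by_contra hc
    push Not at hc
    have hD1 : D = 1 := le_antisymm hc.1 hDpos
    obtain ⟨l, hl⟩ : ∃ l, d l ≠ 0 := by
      by_contra hc'; push Not at hc'; exact hd0 (Finsupp.ext hc')
    have hdl : ∀ l', l' ≠ l → d l' = 0 := by
      intro l' hne
      by_contra h'
      have : ∑ i ∈ ({l, l'} : Finset (Fin (n - 1))), d i ≤ D := sum_le_sum_of_subset (subset_univ _)
      rw [sum_pair (Ne.symm hne)] at this
      omega
    have hdl1 : d l = 1 := by
      have := (single_le_sum (fun i _ => Nat.zero_le (d i)) (mem_univ l)).trans hD1.le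
      omega
    refine hlin ⟨l, Finsupp.ext fun l' => ?_, ?_⟩
    · rcases eq_or_ne l' l with rfl | hne
      · rw [hdl1, Finsupp.single_eq_same]
      · rw [hdl l' hne, Finsupp.single_eq_of_ne hne]
    · have hSl : S = p ^ (l.val + 1) - 1 := by
        rw [hS, sum_eq_single l (fun l' _ hne => by rw [hdl l' hne, zero_mul])
          (fun hc => absurd (mem_univ _) hc), hdl1, one_mul]
      have := h2 l
      omega

/-- The linearised polynomial as a series. -/
def Ls : PowerSeries K := PowerSeries.mk G.main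

theorem ev_Ls [CompleteSpace K] (z : K) : ev₁ G.Ls z = G.env.L z := by
  classical
  rw [ev₁, ev_eq_tsum, tsum_eq_sum (s := G.env.S.image fun i => Finsupp.single () (p ^ i))]
  · rw [sum_image fun i _ j _ hij => Nat.pow_right_injective (Fact.out : p.Prime).two_le
      (Finsupp.single_injective () hij), Env.L]
    refine sum_congr rfl fun i hi => ?_
    simp only
    rw [evTerm, Finsupp.prod_single_index (h := fun _ k => z ^ k) (pow_zero _)]
    have : MvPowerSeries.coeff (Finsupp.single () (p ^ i)) G.Ls = G.main (p ^ i) := by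
      rw [Ls, ← PowerSeries.coeff_mk (p ^ i) G.main, PowerSeries.coeff_def (s := Finsupp.single () (p ^ i))
        (by simp)]
    rw [this, G.main_pow hi]
    rfl
  · intro d hd
    have hb : G.main (d ()) = 0 := G.main_of_not fun i hi hc => hd (mem_image.2 ⟨i, hi, by
      rw [← hc]; exact (Finsupp.unique_single d).symm⟩)
    rw [evTerm, Ls]
    have : MvPowerSeries.coeff d (PowerSeries.mk G.main) = G.main (d ()) := by
      rw [← PowerSeries.coeff_mk (d ()) G.main, PowerSeries.coeff_def (s := d) rfl]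
    rw [this, hb, zero_mul]

/-- LEAD: the `p`-series is its linearised polynomial up to a strictly smaller error. -/
theorem lead [CompleteSpace K] {B : ℝ} (hB : 0 < B) (hB1 : B < 1) {z : K} (hz : ‖z‖ ≤ B) :
    ‖ev₁ G.es z - G.env.L z‖ < G.env.mx B := by
  have hmx := G.env.mx_pos hB
  have hr : max B (G.env.mx B / B) < 1 :=
    max_lt hB1 ((div_lt_one hB).2 (G.env.mx_lt_self hB hB1))
  have hLs : IntegralSeries (G.Ls : PowerSeries K) := fun d => by
    rw [Ls, ← PowerSeries.coeff_def (R := K) (s := d) rfl, PowerSeries.coeff_mk, main]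
    refine norm_sum_le _ _ zero_le_one fun i hi => ?_
    split_ifs
    · exact G.env.norm_a_le hi
    · simp
  have hc : ∀ _ : Unit, ‖z‖ < 1 := fun _ => hz.trans_lt hB1
  rw [← G.ev_Ls, ev₁, ev₁, ← ev_sub (conv_of_integral G.es_integral hc) (conv_of_integral hLs hc)]
  refine lt_of_le_of_lt (norm_ev_le (mul_nonneg (hB.le.trans (le_max_left _ _)) hmx.le) fun d => ?_)
    (mul_lt_of_lt_one_left hmx hr)
  refine le_trans ?_ (G.coeff_sub_main hB hB1 (d ()))
  rw [evTerm, map_sub, norm_mul, ← PowerSeries.coeff_def (R := K) (s := d) rfl, G.coeff_es, Ls, PowerSeries.coeff_mk]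
  refine mul_le_mul_of_nonneg_left ?_ (norm_nonneg _)
  rw [Finsupp.prod_fintype _ _ (fun _ => pow_zero _)]
  simpa using pow_le_pow_left₀ (norm_nonneg z) hz (d ())

theorem norm_es_le [CompleteSpace K] {B : ℝ} (hB : 0 < B) (hB1 : B < 1) {z : K} (hz : ‖z‖ ≤ B) :
    ‖ev₁ G.es z‖ ≤ G.env.mx B := by
  rw [← sub_add_cancel (ev₁ G.es z) (G.env.L z)]
  exact (IsUltrametricDist.norm_add_le_max _ _).trans
    (max_le (G.lead hB hB1 hz).le (G.env.norm_L_le hz))

/-- Contraction: `‖e a - e b‖ ≤ ‖a - b‖ ^ p ^ h`. -/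
theorem norm_es_sub_le [CompleteSpace K] {a c : K} (ha : ‖a‖ < 1) (hc : ‖c‖ < 1) :
    ‖ev₁ G.es a - ev₁ G.es c‖ ≤ ‖a - c‖ ^ p ^ h := by
  have := G.char
  have hsa : Conv (G.es : PowerSeries K) (fun _ : Unit => a) :=
    conv_of_integral G.es_integral fun _ => ha
  have hsc : Conv (G.es : PowerSeries K) (fun _ : Unit => c) :=
    conv_of_integral G.es_integral fun _ => hc
  rw [ev₁, ev₁, ev_eq_tsum, ev_eq_tsum, ← Summable.tsum_sub hsa hsc]
  refine norm_tsum_le_of_forall (pow_nonneg (norm_nonneg _) _) fun d => ?_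
  rw [evTerm, evTerm, ← mul_sub, norm_mul, Finsupp.prod_fintype _ _ (fun _ => pow_zero _),
    Finsupp.prod_fintype _ _ (fun _ => pow_zero _), ← PowerSeries.coeff_def (R := K) (s := d) rfl,
    G.coeff_es]
  by_cases hdvd : p ^ h ∣ d ()
  · obtain ⟨j, hj⟩ := hdvd
    refine (mul_le_of_le_one_left (norm_nonneg _) (G.norm_le _)).trans ?_
    simp only [univ_unique, prod_singleton, PUnit.default_eq_unit, hj, pow_mul]
    rw [← norm_pow, sub_pow_char_pow]
    rw [← geom_sum₂_mul (a ^ p ^ h) (c ^ p ^ h) j, norm_mul]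
    refine mul_le_of_le_one_left (norm_nonneg _) ?_
    refine norm_sum_le _ _ zero_le_one fun i _ => ?_
    rw [norm_mul, norm_pow, norm_pow, norm_pow, norm_pow, ← pow_mul, ← pow_mul]
    exact mul_le_one₀ (pow_le_one₀ (norm_nonneg _) ha.le) (pow_nonneg (norm_nonneg _) _)
      (pow_le_one₀ (norm_nonneg _) hc.le)
  · rw [G.x_low _ (G.facts.frobenius h G.hhn.le _ hdvd), norm_zero, zero_mul]
    exact pow_nonneg (norm_nonneg _) _

end Pt

end Vale.Agent.P217.Newton
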