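import Vale.Agent.P217.Newton.Lead
import Vale.Agent.P217.Easy.Ideals

/-!
P217, Newton half: the slot sequences converge; iterates of the `p`-series against iterates of the
linearised polynomial.
-/

open Finset Filter Topology

noncomputable section

namespace Vale.Agent.P217.Newton

variable {p n h : ℕ} [Fact p.Prime] {e : PowerSeries (LT p n)} {K : Type} [NormedField K]
  [IsUltrametricDist K]

namespace Pt

variable (Q : Pt p n h e K)

/-- A uniform bound below one on the maximal ideal. -/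
theorem exists_mu : ∃ μ : ℝ, 0 < μ ∧ μ < 1 ∧
    ∀ a ∈ IsLocalRing.maximalIdeal (LT p n), ‖Q.x a‖ ≤ μ := by
  have hn : 0 < n := lt_of_le_of_lt (Nat.zero_le _) Q.hhn
  have hne : (range n).Nonempty := nonempty_range_iff.2 hn.ne'
  set μ := max (1 / 2) ((range n).sup' hne fun i => ‖Q.x (par p n i)‖)
  have hμ0 : (0 : ℝ) < μ := lt_of_lt_of_le (by norm_num) (le_max_left _ _)
  refine ⟨μ, hμ0, max_lt (by norm_num) ((sup'_lt_iff hne).2 fun i hi =>
    Q.norm_lt _ (par_mem_maximalIdeal (mem_range.1 hi))), fun a ha => ?_⟩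
  rw [← heightIdeal_eq_maximal hn] at ha
  refine Submodule.span_induction ?_ ?_ ?_ ?_ ha
  · rintro _ ⟨i, hi, rfl⟩
    exact le_trans (le_sup' (fun i => ‖Q.x (par p n i)‖) (mem_range.2 hi)) (le_max_right _ _)
  · rw [map_zero, norm_zero]; exact hμ0.le
  · intro u v _ _ hu hv
    rw [map_add]
    exact (IsUltrametricDist.norm_add_le_max _ _).trans (max_le hu hv)
  · intro r u _ hu
    rw [smul_eq_mul, map_mul, norm_mul]
    exact (mul_le_of_le_one_left (norm_nonneg _) (Q.norm_le r)).trans hu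

/-- A bound for the deviation of the `p`-series from `z ^ p ^ n`. -/
def Dev (μ : ℝ) : Prop := ∀ z : K, ‖z‖ < 1 → ‖ev₁ Q.es z - z ^ p ^ n‖ ≤ μ

theorem exists_dev [CompleteSpace K] : ∃ μ : ℝ, 0 < μ ∧ μ < 1 ∧ Q.Dev μ := by
  obtain ⟨μ, h0, h1, hμ⟩ := Q.exists_mu
  refine ⟨μ, h0, h1, fun z hz => ?_⟩
  have hz' : ∀ _ : Unit, ‖z‖ < 1 := fun _ => hz
  have hX : IntegralSeries ((PowerSeries.X ^ p ^ n : PowerSeries K) : MvPowerSeries Unit K) :=
    IntegralSeries.pow (IntegralSeries.X ()) _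
  have hev : ev₁ (PowerSeries.X ^ p ^ n : PowerSeries K) z = z ^ p ^ n := by
    show ev ((MvPowerSeries.X () : MvPowerSeries Unit K) ^ p ^ n) _ = _
    rw [ev_pow (conv_X () _), ev_X]
  rw [← hev, ev₁, ev₁, ← ev_sub (conv_of_integral Q.es_integral hz') (conv_of_integral hX hz')]
  refine norm_ev_le h0.le fun d => ?_
  rw [evTerm, norm_mul]
  refine le_trans (mul_le_of_le_one_right (norm_nonneg _) (norm_monomial_le_one (fun _ => hz.le) d)) ?_
  rw [map_sub, ← PowerSeries.coeff_def (R := K) (s := d) rfl, Q.coeff_es, PowerSeries.coeff_X_pow]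
  have hred := congrArg (PowerSeries.coeff (d ())) Q.facts.special
  rw [PowerSeries.coeff_map, PowerSeries.coeff_X_pow] at hred
  have hmem : PowerSeries.coeff (d ()) e - (if d () = p ^ n then 1 else 0) ∈
      IsLocalRing.maximalIdeal (LT p n) := by
    refine (IsLocalRing.mem_maximalIdeal _).2 fun hu => (hu.map (red p n)).ne_zero ?_
    rw [map_sub, hred, apply_ite (red p n), map_one (red p n), map_zero (red p n), sub_self]
  have := hμ _ hmem
  rw [map_sub, apply_ite Q.x, map_one Q.x, map_zero Q.x] at this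
  exact this

theorem norm_es_lt_one [CompleteSpace K] {z : K} (hz : ‖z‖ < 1) : ‖ev₁ Q.es z‖ < 1 := by
  rcases (norm_nonneg z).lt_or_eq with h0 | h0
  · exact lt_of_le_of_lt (Q.norm_es_le h0 hz le_rfl) ((Q.env.mx_lt_self h0 hz).trans hz)
  · have := Q.norm_es_le (B := (1 : ℝ) / 2) (by norm_num) (by norm_num) (z := z) (h0 ▸ by norm_num)
    exact lt_of_le_of_lt this ((Q.env.mx_lt_self (by norm_num) (by norm_num)).trans (by norm_num))

theorem norm_iterate_lt_one [CompleteSpace K] {z : K} (hz : ‖z‖ < 1) :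
    ∀ m, ‖(ev₁ Q.es)^[m] z‖ < 1
  | 0 => hz
  | m + 1 => by
    rw [Function.iterate_succ_apply']
    exact Q.norm_es_lt_one (norm_iterate_lt_one hz m)

/-- Iterates of the `p`-series contract. -/
theorem norm_iterate_sub_le [CompleteSpace K] {a c : K} (ha : ‖a‖ < 1) (hc : ‖c‖ < 1) :
    ∀ m, ‖(ev₁ Q.es)^[m] a - (ev₁ Q.es)^[m] c‖ ≤ ‖a - c‖ ^ (p ^ h) ^ m
  | 0 => by simp
  | m + 1 => by
    rw [Function.iterate_succ_apply', Function.iterate_succ_apply', pow_succ (p ^ h), pow_mul]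
    exact (Q.norm_es_sub_le (Q.norm_iterate_lt_one ha m) (Q.norm_iterate_lt_one hc m)).trans
      (pow_le_pow_left₀ (norm_nonneg _) (norm_iterate_sub_le ha hc m) _)

/-- Iterates against the linearised polynomial. -/
theorem iterate_lead [CompleteSpace K] {B : ℝ} (hB : 0 < B) (hB1 : B < 1) {z : K} (hz : ‖z‖ ≤ B) :
    ∀ m, ‖(ev₁ Q.es)^[m] z - Q.env.L^[m] z‖ < Q.env.mxs B m ∧
      ‖(ev₁ Q.es)^[m] z‖ ≤ Q.env.mxs B m ∧ ‖Q.env.L^[m] z‖ ≤ Q.env.mxs B m
  | 0 => by simp [Env.mxs_zero, hB, hz]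
  | m + 1 => by
    obtain ⟨h1, h2, h3⟩ := iterate_lead hB hB1 hz m
    have := Q.char
    have hp : Fact Q.env.p.Prime := (inferInstance : Fact p.Prime)
    have hch : CharP K Q.env.p := Q.char
    have hpos := Q.env.mxs_pos hB m
    rw [Function.iterate_succ_apply', Function.iterate_succ_apply', Q.env.mxs_succ]
    refine ⟨?_, Q.norm_es_le hpos (Q.env.mxs_lt_one hB hB1 m) h2, Q.env.norm_L_le h3⟩
    set a := (ev₁ Q.es)^[m] z
    set c := Q.env.L^[m] z
    have hL : Q.env.L a - Q.env.L c = Q.env.L (a - c) := by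
      simp only [Env.L, ← sum_sub_distrib, sub_pow_char_pow, mul_sub]
    rw [show ev₁ Q.es a - Q.env.L c = (ev₁ Q.es a - Q.env.L a) + Q.env.L (a - c) by rw [← hL]; ring]
    exact lt_of_le_of_lt (IsUltrametricDist.norm_add_le_max _ _)
      (max_lt (Q.lead hpos (Q.env.mxs_lt_one hB hB1 m) h2) (Q.env.norm_L_lt hpos h1))

end Pt

section Slot

variable [CompleteSpace K] {F : FormalGroup (LT p n)} {hh : 1 ≤ h} {P : Ideal (LT p n)}
  {G : GoodPoint p n F h hh P e K} (T : Tower p n G) (Q : Pt p n h e K) (hQ : Q.x = G.x)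

theorem norm_constAt_le (hchar : CharP K p) (α : Res p n) : ‖constAt G.x α‖ ≤ 1 := by
  have := hchar
  rw [constAt_eq]
  exact norm_hom_le_one _ α

theorem constAt_pow (α : Res p n) :
    constAt G.x α ^ p ^ n = constAt G.x α := by
  rw [constAt, ← map_pow, ← map_pow, ← map_pow, res_pow_mod, Nat.mod_self, pow_zero, pow_one]

include hQ in
theorem norm_slot_input (α : Res p n) (M : ℕ) (l : Fin (n - h)) (m : ℕ) :
    ‖constAt G.x α * T.pts m l ^ p ^ M‖ ≤ ‖T.pts m l‖ ^ p ^ M ∧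
      ‖constAt G.x α * T.pts m l ^ p ^ M‖ < 1 := by
  have h1 : ‖constAt G.x α * T.pts m l ^ p ^ M‖ ≤ ‖T.pts m l‖ ^ p ^ M := by
    rw [norm_mul, norm_pow]
    exact mul_le_of_le_one_left (pow_nonneg (norm_nonneg _) _) (norm_constAt_le Q.char α)
  exact ⟨h1, h1.trans_lt (pow_lt_one₀ (norm_nonneg _) (T.small m l)
    (pow_ne_zero _ (Fact.out : p.Prime).ne_zero))⟩

include hQ in
theorem slotSeq_eq (α : Res p n) (M : ℕ) (l : Fin (n - h)) (m : ℕ) :
    slotSeq T α M l m = (ev₁ Q.es)^[m] (constAt G.x α * T.pts m l ^ p ^ M) := by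
  rw [slotSeq, Pt.es, hQ]

include hQ in
/-- The slot sequence is within `μ ^ (P ^ m)` of its limit. -/
theorem slot_tendsto {μ : ℝ} (hμ0 : 0 < μ) (hμ1 : μ < 1) (hdev : Q.Dev μ) (α : Res p n) (M : ℕ)
    (l : Fin (n - h)) (m : ℕ) :
    ‖slotPt T α M l - slotSeq T α M l m‖ ≤ μ ^ (p ^ h) ^ m := by
  have := Q.char
  set s := slotSeq T α M l
  have hP : 1 < p ^ h := Nat.one_lt_pow (by omega) (Fact.out : p.Prime).one_lt
  have hstep : ∀ j, ‖s (j + 1) - s j‖ ≤ μ ^ (p ^ h) ^ j := by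
    intro j
    simp only [s, slotSeq_eq T Q hQ, Function.iterate_succ_apply]
    set z := constAt G.x α * T.pts (j + 1) l ^ p ^ M
    set y := constAt G.x α * T.pts j l ^ p ^ M
    have hz := (norm_slot_input T Q hQ α M l (j + 1)).2
    have hy := (norm_slot_input T Q hQ α M l j).2
    refine (Q.norm_iterate_sub_le (Q.norm_es_lt_one hz) hy j).trans
      (pow_le_pow_left₀ (norm_nonneg _) ?_ _)
    have e1 : z ^ p ^ n - y = constAt G.x α * ((T.pts (j + 1) l ^ p ^ n - T.pts j l) ^ p ^ M) := by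
      simp only [z, y]
      rw [mul_pow, constAt_pow, sub_pow_char_pow, mul_sub,
        ← pow_mul, ← pow_mul, mul_comm (p ^ M)]
    rw [show ev₁ Q.es z - y = (ev₁ Q.es z - z ^ p ^ n) + (z ^ p ^ n - y) by ring]
    refine (IsUltrametricDist.norm_add_le_max _ _).trans (max_le (hdev z hz) ?_)
    rw [e1, norm_mul, norm_pow]
    have hd : ‖T.pts (j + 1) l ^ p ^ n - T.pts j l‖ ≤ μ := by
      rw [← T.step j l, ← hQ, norm_sub_rev]
      exact hdev _ (T.small _ _)
    calc ‖constAt G.x α‖ * ‖T.pts (j + 1) l ^ p ^ n - T.pts j l‖ ^ p ^ M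
        ≤ 1 * μ ^ 1 := mul_le_mul (norm_constAt_le Q.char α)
          ((pow_le_pow_left₀ (norm_nonneg _) hd _).trans (pow_le_pow_of_le_one hμ0.le hμ1.le
            (Nat.one_le_pow _ _ (Fact.out : p.Prime).pos))) (pow_nonneg (norm_nonneg _) _) zero_le_one
      _ = μ := by rw [one_mul, pow_one]
  have hmono : ∀ i j, i ≤ j → μ ^ (p ^ h) ^ j ≤ μ ^ (p ^ h) ^ i := fun i j hij =>
    pow_le_pow_of_le_one hμ0.le hμ1.le (Nat.pow_le_pow_right (by omega) hij)
  have htel : ∀ i j, ‖s (i + j) - s i‖ ≤ μ ^ (p ^ h) ^ i := by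
    intro i j
    induction j with
    | zero => simp [pow_nonneg hμ0.le]
    | succ j ih =>
      rw [← sub_add_sub_cancel (s (i + (j + 1))) (s (i + j)) (s i)]
      exact (IsUltrametricDist.norm_add_le_max _ _).trans
        (max_le ((hstep (i + j)).trans (hmono i (i + j) (by omega))) ih)
  have hb : Tendsto (fun i => μ ^ (p ^ h) ^ i) atTop (𝓝 0) :=
    (tendsto_pow_atTop_nhds_zero_of_lt_one hμ0.le hμ1).comp
      (tendsto_pow_atTop_atTop_of_one_lt hP)
  have hc : CauchySeq s := by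
    refine cauchySeq_of_le_tendsto_0 (fun i => μ ^ (p ^ h) ^ i) (fun a c N ha hc => ?_) hb
    obtain ⟨u, rfl⟩ := Nat.exists_eq_add_of_le ha
    obtain ⟨v, rfl⟩ := Nat.exists_eq_add_of_le hc
    rw [dist_eq_norm, ← sub_sub_sub_cancel_right (s (N + u)) (s (N + v)) (s N)]
    rw [sub_eq_add_neg]
    refine (IsUltrametricDist.norm_add_le_max _ _).trans (max_le (htel N u) ?_)
    rw [norm_neg]; exact htel N v
  obtain ⟨x, hx⟩ := cauchySeq_tendsto_of_complete hc
  have hlim : slotPt T α M l = x := hx.limUnder_eq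
  rw [hlim]
  refine le_of_tendsto ((hx.sub_const (s m)).norm) ?_
  rw [eventually_atTop]
  refine ⟨m, fun j hj => ?_⟩
  obtain ⟨u, rfl⟩ := Nat.exists_eq_add_of_le hj
  exact htel m u

end Slot

/-- A unipotent coordinate is its linear part up to second order. -/
theorem norm_tau_sub_le [CompleteSpace K] {τ : PowerSeries K} (h0 : PowerSeries.constantCoeff τ = 0)
    (hτ : ∀ b, ‖PowerSeries.coeff b τ‖ ≤ 1) {B : ℝ} (hB1 : B < 1) {z : K} (hz : ‖z‖ ≤ B) :
    ‖ev₁ τ z - PowerSeries.coeff 1 τ * z‖ ≤ B ^ 2 := by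
  have hz' : ∀ _ : Unit, ‖z‖ < 1 := fun _ => hz.trans_lt hB1
  have hi : IntegralSeries (τ : PowerSeries K) := fun d => by
    rw [← PowerSeries.coeff_def (R := K) (s := d) rfl]; exact hτ _
  set c := PowerSeries.coeff 1 τ
  have hl : IntegralSeries ((PowerSeries.C c * PowerSeries.X : PowerSeries K) : MvPowerSeries Unit K) :=
    IntegralSeries.mul (IntegralSeries.of_C (hτ 1)) (IntegralSeries.X ())
  have hev : ev₁ (PowerSeries.C c * PowerSeries.X : PowerSeries K) z = c * z := by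
    show ev (MvPowerSeries.C c * MvPowerSeries.X () : MvPowerSeries Unit K) _ = _
    rw [ev_mul (conv_C _ _) (conv_X _ _), ev_C, ev_X]
  rw [← hev, ev₁, ev₁, ← ev_sub (conv_of_integral hi hz') (conv_of_integral hl hz')]
  refine norm_ev_le_pow (IntegralSeries.sub hi hl) (fun d hd => ?_) ((norm_nonneg z).trans hz) hB1.le
    (fun _ => hz)
  rw [Finsupp.degree_eq_sum, univ_unique, sum_singleton] at hd
  change d () < 2 at hd
  rw [map_sub, ← PowerSeries.coeff_def (R := K) (s := d) rfl]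
  rcases (show d () = 0 ∨ d () = 1 by omega) with h | h <;> rw [h]
  · simp [h0]
  · simp [c]

end Vale.Agent.P217.Newton
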