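import Vale.Agent.P217.Newton.Tower
import Vale.Agent.P217.Newton.Slot

/-!
P217, Newton half: the norms along a tower and the residues along it.
-/

open Finset

noncomputable section

namespace Vale.Agent.P217.Newton

variable {p n : ℕ} [Fact p.Prime] {K : Type} [NormedField K] [IsUltrametricDist K]
  [CompleteSpace K] {h : ℕ} {e : PowerSeries (LT p n)}

namespace Pt

variable (Q : Pt p n h e K) {rho : ℝ}

theorem q_pos : 0 < p ^ n := pow_pos (Fact.out : p.Prime).pos n

/-- Outside the radius only the top term matters. -/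
theorem near_pow (hE : Q.env.Bounded rho) {z : K} (hz1 : ‖z‖ < 1) (hz : rho < ‖z‖) :
    ‖ev₁ Q.es z - z ^ p ^ n‖ < ‖z‖ ^ p ^ n ∧ ‖ev₁ Q.es z‖ = ‖z‖ ^ p ^ n := by
  have hz0 : 0 < ‖z‖ := hE.1.trans hz
  obtain ⟨h1, h2, h3⟩ := Q.env.pure hE hz
  have hlead := Q.lead hz0 hz1 (le_refl ‖z‖)
  have hmx : Q.env.mx ‖z‖ = ‖z‖ ^ p ^ n := h3
  rw [hmx] at hlead
  have hrest : ‖Q.env.L z - z ^ p ^ n‖ < ‖z‖ ^ p ^ n := by
    rw [Env.L, ← add_sum_erase _ _ Q.env.n_mem, Q.env.a_n, one_mul]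
    rw [show z ^ Q.env.p ^ Q.env.n + ∑ i ∈ Q.env.S.erase Q.env.n, Q.env.a i * z ^ Q.env.p ^ i -
      z ^ p ^ n = ∑ i ∈ Q.env.S.erase Q.env.n, Q.env.a i * z ^ Q.env.p ^ i from add_sub_cancel_left _ _]
    refine norm_sum_lt _ _ (pow_pos hz0 _) fun i hi => ?_
    rw [norm_mul, norm_pow, ← hmx]
    refine Q.env.W_lt_of_not_between (mem_of_mem_erase hi) (Or.inr ?_)
    rw [h2]
    exact lt_of_le_of_ne (Q.env.mem_S.1 (mem_of_mem_erase hi)).2 (ne_of_mem_erase hi)
  have hdiff : ‖ev₁ Q.es z - z ^ p ^ n‖ < ‖z‖ ^ p ^ n := by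
    rw [show ev₁ Q.es z - z ^ p ^ n = (ev₁ Q.es z - Q.env.L z) + (Q.env.L z - z ^ p ^ n) by ring]
    exact lt_of_le_of_lt (IsUltrametricDist.norm_add_le_max _ _) (max_lt hlead hrest)
  refine ⟨hdiff, ?_⟩
  rw [show ev₁ Q.es z = (ev₁ Q.es z - z ^ p ^ n) + z ^ p ^ n by ring,
    IsUltrametricDist.norm_add_eq_max_of_norm_ne_norm (by rw [norm_pow]; exact hdiff.ne),
    norm_pow, max_eq_right hdiff.le]

theorem norm_le_of_le (hE : Q.env.Bounded rho) {z : K} (hz : ‖z‖ ≤ rho) :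
    ‖ev₁ Q.es z‖ ≤ rho ^ p ^ n :=
  (Q.norm_es_le hE.1 hE.2.1 hz).trans (Q.env.mx_rho hE).le

theorem rho_pow_lt (hE : Q.env.Bounded rho) : rho ^ p ^ n < rho :=
  pow_lt_self_of_lt_one₀ hE.1 hE.2.1
    (Nat.one_lt_pow (by have := Q.hhn; omega) (Fact.out : p.Prime).one_lt)

/-- A preimage of a point at or above the radius. -/
theorem norm_preimage (hE : Q.env.Bounded rho) {z : K} (hz1 : ‖z‖ < 1)
    (hw : rho ≤ ‖ev₁ Q.es z‖) : rho < ‖z‖ ∧ ‖ev₁ Q.es z‖ = ‖z‖ ^ p ^ n := by
  have hz : rho < ‖z‖ := by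
    by_contra hc
    exact absurd (hw.trans (Q.norm_le_of_le hE (not_lt.1 hc))) (not_le.2 (Q.rho_pow_lt hE))
  exact ⟨hz, (Q.near_pow hE hz1 hz).2⟩

end Pt

variable {F : FormalGroup (LT p n)} {hh : 1 ≤ h} {P : Ideal (LT p n)}
  {G : GoodPoint p n F h hh P e K} (T : Tower p n G) (Q : Pt p n h e K) (hQ : Q.x = G.x)

include hQ in
theorem tower_step (j : ℕ) (l : Fin (n - h)) : ev₁ Q.es (T.pts (j + 1) l) = T.pts j l := by
  rw [Pt.es, hQ]; exact T.step j l

include hQ in
/-- The levels bound the norms along the tower. -/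
theorem pts_le (hE : Q.env.Bounded G.rho) (l : Fin (n - h)) :
    ∀ j, ‖T.pts (j + 1) l‖ ≤ Q.env.lev G.rho j
  | 0 => by rw [Env.lev_zero, T.pts_one]; exact G.tor_le l
  | j + 1 => by
    by_contra hc
    rw [not_le] at hc
    have hlt := Q.env.rho_lt_lev hE.1 hE.2.1 (Nat.succ_pos j)
    have h2 := (Q.near_pow hE (T.small (j + 2) l) (hlt.trans hc)).2
    rw [tower_step T Q hQ] at h2
    have h3 := pts_le hE l j
    rw [h2, ← Q.env.lev_succ_pow hE.1 j] at h3
    exact absurd (le_of_pow_le_pow_left₀ (Pt.q_pos (p := p) (n := n)).ne'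
      (Q.env.lev_pos hE.1 _).le h3) (not_le.2 hc)

include hQ in
/-- A point at the radius climbs the levels, and its residue is carried along. -/
theorem climb (hE : Q.env.Bounded G.rho) (l : Fin (n - h)) {k : ℕ}
    (hk : ‖T.pts (k + 1) l‖ = G.rho) : ∀ j, ‖T.pts (k + j + 1) l‖ = Q.env.lev G.rho j ∧
      ‖T.pts (k + j + 1) l ^ (p ^ n) ^ j - T.pts (k + 1) l‖ < G.rho
  | 0 => by simp [Env.lev_zero, hk, hE.1]
  | j + 1 => by
    have := Q.char
    obtain ⟨h1, h2⟩ := climb hE l hk j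
    have hst := tower_step T Q hQ (k + j + 1) l
    have hge : G.rho ≤ ‖ev₁ Q.es (T.pts (k + j + 1 + 1) l)‖ := by
      rw [hst, h1]
      conv_lhs => rw [← Q.env.lev_zero G.rho]
      exact (Q.env.lev_strictMono hE.1 hE.2.1).monotone (Nat.zero_le j)
    obtain ⟨hgt, heq⟩ := Q.norm_preimage hE (T.small _ l) hge
    rw [hst, h1, ← Q.env.lev_succ_pow hE.1 j] at heq
    have hn1 : ‖T.pts (k + (j + 1) + 1) l‖ = Q.env.lev G.rho (j + 1) :=
      (pow_left_inj₀ (norm_nonneg _) (Q.env.lev_pos hE.1 _).le (Pt.q_pos (p := p) (n := n)).ne').1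
        heq.symm
    refine ⟨hn1, ?_⟩
    have hd := (Q.near_pow hE (T.small (k + j + 1 + 1) l) hgt).1
    rw [hst] at hd
    rw [show T.pts (k + (j + 1) + 1) l ^ (p ^ n) ^ (j + 1) - T.pts (k + 1) l =
      (T.pts (k + j + 1 + 1) l ^ p ^ n - T.pts (k + j + 1) l) ^ (p ^ n) ^ j +
        (T.pts (k + j + 1) l ^ (p ^ n) ^ j - T.pts (k + 1) l) by
      have hc : ∀ a b : K, (a - b) ^ (p ^ n) ^ j = a ^ (p ^ n) ^ j - b ^ (p ^ n) ^ j := fun a b => by
        rw [← pow_mul]; exact sub_pow_char_pow ..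
      rw [hc, pow_succ' (p ^ n), pow_mul, sub_add_sub_cancel]; rfl]
    refine lt_of_le_of_lt (IsUltrametricDist.norm_add_le_max _ _) (max_lt ?_ h2)
    rw [norm_pow, norm_sub_rev]
    have hlev : Q.env.lev G.rho j ^ (p ^ n) ^ j = G.rho := by
      have := Q.env.lev_add_pow (rho := G.rho) hE.1 0 j
      rw [zero_add, Env.lev_zero, pow_mul] at this
      exact this
    rw [← hlev]
    refine pow_lt_pow_left₀ (lt_of_lt_of_le hd ?_) (norm_nonneg _) (pow_pos (Pt.q_pos) _).ne'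
    rw [show T.pts (k + j + 1 + 1) l = T.pts (k + (j + 1) + 1) l from rfl, hn1]
    exact (Q.env.lev_succ_pow hE.1 j).le

theorem norm_tor_good {l : Fin (n - h)} (hl : l ∈ G.good) : ‖G.tor l‖ = G.rho := by
  classical
  refine le_antisymm (G.tor_le l) (not_lt.1 fun hlt => ?_)
  have hP : p ^ h ≠ 0 := pow_ne_zero _ (Fact.out : p.Prime).ne_zero
  have := G.good_indep (fun i => if i = l then 1 else 0)
    (fun i => by split_ifs <;> [exact one_pow _; exact zero_pow hP]) (by
      rw [sum_eq_single l (fun i _ hne => by rw [if_neg hne, zero_mul]) (fun h => absurd hl h),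
        if_pos rfl, one_mul]
      exact hlt) l hl
  simp at this

include hQ in
/-- The extra coordinate: at a level, or strictly between two levels. -/
theorem extra_position (hchar : CharP K p) (hfacts : FactsStatement p n)
    (hF : IsUniversalLaw p n F) (hE : Q.env.Bounded G.rho) :
    (∃ k, ‖T.pts (k + 1) G.extra‖ = G.rho) ∨
    ∃ k i, ∀ j, i ≤ j → Q.env.lev G.rho j < ‖T.pts (k + (j + 1) + 1) G.extra‖ ∧
      ‖T.pts (k + (j + 1) + 1) G.extra‖ < Q.env.lev G.rho (j + 1) := by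
  classical
  set l := G.extra
  have hne : G.tor l ≠ 0 := by
    intro h0
    have := hchar
    have hcomb : combination (lawAt p n F G.x) (Pi.single l 1) G.tor = 0 := by
      have : Fact (IntegralSeries (F.map G.x).toPowerSeries) := ⟨integral_lawAt G.norm_le⟩
      have := isComm_map (hfacts F hF).1 G.x
      rw [lawAt_eq_map]
      let z : Fin (n - h) → Vale.Agent.P217.Pt (F.map G.x) := fun i => ⟨G.tor i, G.tor_small i⟩
      rw [show combination (F.map G.x).toPowerSeries (Pi.single l 1) G.tor =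
        (∑ i, (Pi.single l 1 : Fin (n - h) → ℕ) i • z i).val from
        Vale.Agent.P217.Pt.combination_eq_sum _ z]
      rw [sum_eq_single l (fun i _ hne => by rw [Pi.single_eq_of_ne hne, zero_nsmul])
        (fun hl => absurd (mem_univ l) hl), Pi.single_eq_same, one_nsmul]
      exact h0
    have hd := G.tor_indep _ hcomb l
    rw [Pi.single_eq_same] at hd
    exact (Fact.out : p.Prime).not_dvd_one hd
  have hex : ∃ j, G.rho < ‖T.pts (j + 1) l‖ := by
    by_contra hc
    push Not at hc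
    obtain ⟨j, hj⟩ := Q.env.exists_mxs_lt hE.1 hE.2.1 (norm_pos_iff.2 hne)
    have hiter : ∀ i m, (ev₁ Q.es)^[m] (T.pts (i + m) l) = T.pts i l := by
      intro i m
      induction m with
      | zero => rfl
      | succ m ih => rw [Function.iterate_succ_apply, ← add_assoc, tower_step T Q hQ, ih]
    have := (Q.iterate_lead hE.1 hE.2.1 (hc j) j).2.1
    rw [show j + 1 = 1 + j by omega, hiter 1 j, T.pts_one] at this
    exact absurd (this.trans_lt hj) (lt_irrefl _)
  obtain ⟨j₀, hj₀⟩ := hex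
  set v := ‖T.pts (j₀ + 1) l‖
  have hexi : ∃ i, v ≤ Q.env.lev G.rho i := ⟨j₀, pts_le T Q hQ hE l j₀⟩
  have hfle := Nat.find_le (pts_le T Q hQ hE l j₀) (h := hexi)
  have hspec := Nat.find_spec hexi
  obtain ⟨i, hi⟩ : ∃ i, Nat.find hexi = i + 1 := by
    refine Nat.exists_eq_succ_of_ne_zero fun h0 => ?_
    rw [h0, Env.lev_zero] at hspec
    exact absurd hspec (not_le.2 hj₀)
  have hmin : Q.env.lev G.rho i < v := not_le.1 (Nat.find_min hexi (by omega))
  rw [hi] at hspec hfle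
  obtain ⟨k, hk⟩ := Nat.exists_eq_add_of_le hfle
  obtain rfl : j₀ = k + (i + 1) := by omega
  have hv : v = ‖T.pts (k + (i + 1) + 1) l‖ := rfl
  rcases hspec.lt_or_eq with hlt | heq
  · refine Or.inr ⟨k, i, fun j hj => ?_⟩
    induction j, hj using Nat.le_induction with
    | base => exact ⟨hv ▸ hmin, hv ▸ hlt⟩
    | succ j _ ih =>
      have hst := tower_step T Q hQ (k + (j + 1) + 1) l
      have hge : G.rho ≤ ‖ev₁ Q.es (T.pts (k + (j + 1) + 1 + 1) l)‖ := by
        rw [hst]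
        refine le_trans ?_ ih.1.le
        conv_lhs => rw [← Q.env.lev_zero G.rho]
        exact (Q.env.lev_strictMono hE.1 hE.2.1).monotone (Nat.zero_le j)
      obtain ⟨-, heq'⟩ := Q.norm_preimage hE (T.small _ l) hge
      rw [hst] at heq'
      rw [show k + (j + 1 + 1) + 1 = k + (j + 1) + 1 + 1 by omega]
      constructor
      · refine lt_of_pow_lt_pow_left₀ (p ^ n) (norm_nonneg _) ?_
        rw [← heq']
        exact (Q.env.lev_succ_pow hE.1 j).trans_lt ih.1
      · refine lt_of_pow_lt_pow_left₀ (p ^ n) (Q.env.lev_pos hE.1 _).le ?_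
        rw [← heq']
        exact ih.2.trans_eq (Q.env.lev_succ_pow hE.1 (j + 1)).symm
  · refine Or.inl ⟨k, ?_⟩
    rw [hv] at heq
    clear * - heq hE hQ
    induction i with
    | zero =>
      have hgt : G.rho < ‖T.pts (k + 1 + 1) l‖ := by
        rw [heq]; exact Q.env.rho_lt_lev hE.1 hE.2.1 one_pos
      have h2 := (Q.near_pow hE (T.small _ l) hgt).2
      rw [tower_step T Q hQ, heq] at h2
      exact h2.trans ((Q.env.lev_succ_pow hE.1 0).trans (Q.env.lev_zero G.rho))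
    | succ i ih =>
      refine ih ?_
      have hgt : G.rho < ‖T.pts (k + (i + 1 + 1) + 1) l‖ := by
        rw [heq]; exact Q.env.rho_lt_lev hE.1 hE.2.1 (by omega)
      have h2 := (Q.near_pow hE (T.small _ l) hgt).2
      rw [show k + (i + 1 + 1) + 1 = k + (i + 1) + 1 + 1 by omega] at h2 heq
      rw [tower_step T Q hQ, heq] at h2
      exact h2.trans (Q.env.lev_succ_pow hE.1 (i + 1))

end Vale.Agent.P217.Newton
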