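import Vale.Agent.P217.Newton.Levels

/-!
P217, Newton half: leading terms of the slot points, and the relations between residues which follow
from relations between these terms.
-/

open Finset

noncomputable section

namespace Vale.Agent.P217.Newton

variable {p n h : ℕ} [Fact p.Prime] {K : Type} [NormedField K]

section Fixed

variable {γ : K}

omit [Fact p.Prime] in
theorem fixed_pow (hγ : γ ^ p ^ h = γ) : ∀ j, γ ^ p ^ (h * j) = γ
  | 0 => by simp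
  | j + 1 => by rw [mul_add, mul_one, pow_add, pow_mul γ, fixed_pow hγ j, hγ]

/-- The `p ^ b`-th root of a fixed element of `Frob ^ h`. -/
def rt (p h b : ℕ) (γ : K) : K := γ ^ p ^ ((h - 1) * b)

omit [Fact p.Prime] in
theorem rt_pow (hh : 1 ≤ h) (hγ : γ ^ p ^ h = γ) (b : ℕ) : rt p h b γ ^ p ^ b = γ := by
  obtain ⟨m, rfl⟩ := Nat.exists_eq_add_of_le' hh
  rw [rt, ← pow_mul, ← pow_add, show (m + 1 - 1) * b + b = (m + 1) * b by
    rw [Nat.add_sub_cancel]; ring, fixed_pow hγ]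

omit [Fact p.Prime] in
theorem rt_fixed (hγ : γ ^ p ^ h = γ) (b : ℕ) : rt p h b γ ^ p ^ h = rt p h b γ := by
  rw [rt, ← pow_mul, mul_comm, pow_mul, hγ]

theorem norm_fixed_le (hh : 1 ≤ h) (hγ : γ ^ p ^ h = γ) : ‖γ‖ ≤ 1 := by
  by_contra hc
  rw [not_le] at hc
  have := congrArg (fun a : K => ‖a‖) hγ
  simp only [norm_pow] at this
  exact absurd this (lt_self_pow₀ hc (Nat.one_lt_pow (by omega) (Fact.out : p.Prime).one_lt)).ne'

theorem norm_fixed_eq (hh : 1 ≤ h) (hγ : γ ^ p ^ h = γ) (h0 : γ ≠ 0) : ‖γ‖ = 1 := by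
  refine le_antisymm (norm_fixed_le hh hγ) (not_lt.1 fun hc => ?_)
  have := congrArg (fun a : K => ‖a‖) hγ
  simp only [norm_pow] at this
  exact absurd this (pow_lt_self_of_lt_one₀ (norm_pos_iff.2 h0) hc
    (Nat.one_lt_pow (by omega) (Fact.out : p.Prime).one_lt)).ne

end Fixed

theorem class_outside {N lo hi e : ℕ} (hlen : hi < lo + N) (hmod : e % N = hi % N) (hne : e ≠ hi) :
    hi < e ∨ e < lo := by
  by_contra hc
  push Not at hc
  have h0 := Nat.eq_zero_of_dvd_of_lt ((Nat.modEq_iff_dvd' hc.1).1 hmod) (by omega)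
  omega

variable [IsUltrametricDist K]

/-- Separation for a family of exponents. -/
theorem separate_one {ι : Type*} (hn : 0 < n) (φ : Res p n →+* K) (s : Finset ι) (ε : ι → ℕ)
    (A : ι → K) {c : ℝ} (hc : 0 < c) (hyp : ∀ α : Res p n, ‖∑ i ∈ s, A i * φ α ^ p ^ ε i‖ < c)
    {i₀ : ι} (hi₀ : i₀ ∈ s) (hother : ∀ i ∈ s, i ≠ i₀ → ε i % n = ε i₀ % n → ‖A i‖ < c) :
    ‖A i₀‖ < c := by
  classical
  set t := s.image ε
  have h1 := separate hn φ t (fun e => ∑ i ∈ s.filter (fun i => ε i = e), A i) hc (fun α => by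
    rw [show ∑ e ∈ t, (∑ i ∈ s.filter (fun i => ε i = e), A i) * φ α ^ p ^ e =
        ∑ i ∈ s, A i * φ α ^ p ^ ε i by
      rw [← sum_fiberwise_of_maps_to (fun i hi => mem_image_of_mem ε hi)
        (fun i => A i * φ α ^ p ^ ε i)]
      refine sum_congr rfl fun e _ => ?_
      rw [sum_mul]
      exact sum_congr rfl fun i hi => by rw [(mem_filter.1 hi).2]]
    exact hyp α) (ε i₀)
  have h2 : ∑ e ∈ t.filter (fun e => e % n = ε i₀ % n), ∑ i ∈ s.filter (fun i => ε i = e), A i =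
      ∑ i ∈ s.filter (fun i => ε i % n = ε i₀ % n), A i := by
    rw [← sum_fiberwise_of_maps_to (g := ε) (t := t.filter fun e => e % n = ε i₀ % n) (fun i hi => by
      obtain ⟨hi, he⟩ := mem_filter.1 hi
      exact mem_filter.2 ⟨mem_image_of_mem ε hi, he⟩) A]
    refine sum_congr rfl fun e he => sum_congr ?_ fun _ _ => rfl
    rw [filter_filter]
    refine filter_congr fun i _ => ⟨fun hie => ⟨hie ▸ (mem_filter.1 he).2, hie⟩, fun hie => hie.2⟩
  rw [h2, ← add_sum_erase _ _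
    (mem_filter.2 ⟨hi₀, rfl⟩ : i₀ ∈ s.filter fun i => ε i % n = ε i₀ % n)] at h1
  set u := ∑ i ∈ (s.filter fun i => ε i % n = ε i₀ % n).erase i₀, A i
  have h3 : ‖u‖ < c := norm_sum_lt _ _ hc fun i hi => by
    obtain ⟨hne, hi⟩ := mem_erase.1 hi
    exact hother i (mem_filter.1 hi).1 hne (mem_filter.1 hi).2
  rw [← add_sub_cancel_right (A i₀) u, sub_eq_add_neg]
  exact lt_of_le_of_lt (IsUltrametricDist.norm_add_le_max _ _) (max_lt h1 (by rwa [norm_neg]))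

variable {e : PowerSeries (LT p n)}

namespace Pt

variable (Q : Pt p n h e K)

theorem n_pos (Q : Pt p n h e K) : 0 < n := lt_of_le_of_lt (Nat.zero_le _) Q.hhn

theorem C_le {B : ℝ} (hB : 0 < B) (m f : ℕ) : ‖Q.env.C m f‖ * B ^ p ^ f ≤ Q.env.mxs B m :=
  (Q.env.C_facts hB m).1 f

theorem C_lt {B : ℝ} (hB : 0 < B) {m f : ℕ} (hf : Q.env.emax B m < f ∨ f < Q.env.emin B m) :
    ‖Q.env.C m f‖ * B ^ p ^ f < Q.env.mxs B m :=
  (Q.env.C_facts hB m).2.1 f hf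

theorem C_eq {B : ℝ} (hB : 0 < B) (m : ℕ) :
    ‖Q.env.C m (Q.env.emax B m)‖ * B ^ p ^ Q.env.emax B m = Q.env.mxs B m :=
  (Q.env.C_facts hB m).2.2

theorem emax_lt_range (B : ℝ) (m : ℕ) : Q.env.emax B m ∈ range (n * m + 1) :=
  mem_range.2 (Nat.lt_succ_of_le (Q.env.emax_le B m))

theorem span_lt {B : ℝ} (hB : 0 < B) (hB1 : B < 1) (m : ℕ) :
    Q.env.emax B m < Q.env.emin B m + n := by
  have h1 : Q.env.emax B m + h ≤ Q.env.emin B m + n := Q.env.emax_sub_emin hB hB1 m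
  have := Q.hh
  omega

/-- The iterate at a scaled Frobenius power. -/
theorem iterate_L_eq [CharP K p] (c x : K) (M m : ℕ) :
    Q.env.L^[m] (c * x ^ p ^ M) =
      ∑ f ∈ range (n * m + 1), Q.env.C m f * x ^ p ^ (M + f) * c ^ p ^ f := by
  have : Fact Q.env.p.Prime := (inferInstance : Fact p.Prime)
  have : CharP K Q.env.p := (inferInstance : CharP K p)
  rw [Q.env.iterate_L]
  refine sum_congr rfl fun f _ => ?_
  show Q.env.C m f * (c * x ^ p ^ M) ^ p ^ f = _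
  rw [mul_pow, ← pow_mul, ← pow_add]
  ring

theorem norm_iterate_L_le {B : ℝ} {z : K} (hz : ‖z‖ ≤ B) : ∀ k, ‖Q.env.L^[k] z‖ ≤ Q.env.mxs B k
  | 0 => hz
  | k + 1 => by
    rw [Function.iterate_succ_apply', Q.env.mxs_succ]
    exact Q.env.norm_L_le (norm_iterate_L_le hz k)

/-- A small relation between the iterates is one between the dominant powers. -/
theorem sep_top [CharP K p] (φ : Res p n →+* K) {b : ℝ} (hb0 : 0 < b) (hb1 : b < 1)
    (s : Finset (Fin (n - h))) (δ x : Fin (n - h) → K) (M m : ℕ) (hδ : ∀ l ∈ s, ‖δ l‖ ≤ 1)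
    (hx : ∀ l ∈ s, ‖x l‖ ≤ b)
    (hyp : ∀ α : Res p n,
      ‖∑ l ∈ s, δ l * Q.env.L^[m] (φ α * x l ^ p ^ M)‖ < Q.env.mxs (b ^ p ^ M) m) :
    ‖∑ l ∈ s, δ l * x l ^ p ^ (M + Q.env.emax (b ^ p ^ M) m)‖ <
      b ^ p ^ (M + Q.env.emax (b ^ p ^ M) m) := by
  set B := b ^ p ^ M with hBdef
  have hB : 0 < B := pow_pos hb0 _
  have hB1 : B < 1 := pow_lt_one₀ hb0.le hb1 (pow_ne_zero _ (Fact.out : p.Prime).ne_zero)
  set S : ℕ → K := fun f => ∑ l ∈ s, δ l * x l ^ p ^ (M + f)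
  have hS : ∀ f, ‖S f‖ ≤ B ^ p ^ f := fun f => norm_sum_le _ _ (pow_nonneg hB.le _) fun l hl => by
    rw [norm_mul, norm_pow, hBdef, ← pow_mul, ← pow_add]
    exact (mul_le_of_le_one_left (pow_nonneg (norm_nonneg _) _) (hδ l hl)).trans
      (pow_le_pow_left₀ (norm_nonneg _) (hx l hl) _)
  have key := separate_one Q.n_pos φ (range (n * m + 1)) (fun f => f) (fun f => Q.env.C m f * S f)
    (Q.env.mxs_pos hB m) (fun α => by
      rw [show ∑ f ∈ range (n * m + 1), Q.env.C m f * S f * φ α ^ p ^ f =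
          ∑ l ∈ s, δ l * Q.env.L^[m] (φ α * x l ^ p ^ M) by
        simp only [Q.iterate_L_eq, S, mul_sum, sum_mul]
        rw [sum_comm]
        exact sum_congr rfl fun l _ => sum_congr rfl fun f _ => by ring]
      exact hyp α) (Q.emax_lt_range B m) fun f _ hne hmod => by
      rw [norm_mul]
      exact lt_of_le_of_lt (mul_le_mul_of_nonneg_left (hS f) (norm_nonneg _))
        (Q.C_lt hB (class_outside (Q.span_lt hB hB1 m) hmod hne))
  rw [norm_mul, ← Q.C_eq hB m] at key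
  have := lt_of_mul_lt_mul_left key (norm_nonneg _)
  rwa [hBdef, ← pow_mul, ← pow_add] at this

/-- From a small relation between the iterates to one between the residues. -/
theorem core [CharP K p] {rho : ℝ} (hE : Q.env.Bounded rho) (φ : Res p n →+* K) (N M : ℕ)
    (s : Finset (Fin (n - h))) (δ x r : Fin (n - h) → K) (hδ : ∀ l, δ l ^ p ^ h = δ l)
    (hx : ∀ l ∈ s, ‖x l‖ ≤ Q.env.lev rho N)
    (hr : ∀ l ∈ s, ‖x l ^ (p ^ n) ^ N - r l‖ < rho)
    (hyp : ∀ α : Res p n, ‖∑ l ∈ s, δ l * Q.env.L^[N + 1] (φ α * x l ^ p ^ M)‖ <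
      Q.env.mxs (Q.env.lev rho N ^ p ^ M) (N + 1)) :
    ∃ η : Fin (n - h) → K, (∀ l, η l ^ p ^ h = η l) ∧
      (∀ l, η l ^ p ^ (M + Q.env.emax (Q.env.lev rho N ^ p ^ M) (N + 1) + n * N * (h - 1)) = δ l) ∧
      ‖∑ l ∈ s, η l * r l‖ < rho := by
  set b := Q.env.lev rho N
  have hb0 : 0 < b := Q.env.lev_pos hE.1 N
  have h1 := Q.sep_top φ hb0 (Q.env.lev_lt_one hE.1 hE.2.1 N) s δ x M (N + 1)
    (fun l _ => norm_fixed_le Q.hh (hδ l)) hx hyp
  set T := M + Q.env.emax (b ^ p ^ M) (N + 1)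
  set T' := T + n * N * (h - 1) with hT'
  refine ⟨fun l => rt p h T' (δ l), fun l => rt_fixed (hδ l) _,
    fun l => rt_pow Q.hh (hδ l) _, ?_⟩
  have hexp : T + h * (n * N) = n * N + T' := by
    obtain ⟨h', hh'⟩ := Nat.exists_eq_add_of_le' Q.hh
    rw [hT', hh', Nat.add_sub_cancel]; ring
  have hb : b ^ p ^ (n * N) = rho := by
    have := Q.env.lev_add_pow (rho := rho) hE.1 0 N
    rwa [zero_add, Env.lev_zero] at this
  have h2 : ‖(∑ l ∈ s, rt p h T' (δ l) * x l ^ p ^ (n * N)) ^ p ^ T'‖ < rho ^ p ^ T' := by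
    have h3 := pow_lt_pow_left₀ h1 (norm_nonneg _)
      (pow_ne_zero (h * (n * N)) (Fact.out : p.Prime).ne_zero)
    have hR : (b ^ p ^ T) ^ p ^ (h * (n * N)) = rho ^ p ^ T' := by
      rw [← hb, ← pow_mul, ← pow_mul, ← pow_add, ← pow_add, hexp]
    rw [hR, ← norm_pow, sum_pow_char_pow] at h3
    rw [sum_pow_char_pow]
    refine lt_of_eq_of_lt (congrArg _ (sum_congr rfl fun l _ => ?_)) h3
    rw [mul_pow, mul_pow, rt_pow Q.hh (hδ l), fixed_pow (hδ l), ← pow_mul, ← pow_mul, ← pow_add,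
      ← pow_add, hexp]
  rw [norm_pow] at h2
  have h4 := lt_of_pow_lt_pow_left₀ _ hE.1.le h2
  rw [show ∑ l ∈ s, rt p h T' (δ l) * r l = ∑ l ∈ s, rt p h T' (δ l) * x l ^ p ^ (n * N) +
    -∑ l ∈ s, rt p h T' (δ l) * (x l ^ p ^ (n * N) - r l) by
      rw [← sum_neg_distrib, ← sum_add_distrib]; exact sum_congr rfl fun l _ => by ring]
  refine lt_of_le_of_lt (IsUltrametricDist.norm_add_le_max _ _) (max_lt h4 ?_)
  rw [norm_neg]
  refine norm_sum_lt _ _ hE.1 fun l hl => lt_of_le_of_lt ?_ (hr l hl)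
  rw [norm_mul, pow_mul p n N]
  exact mul_le_of_le_one_left (norm_nonneg _) (norm_fixed_le Q.hh (rt_fixed (hδ l) _))

/-- Deep iterates are powers in the scaled coordinate. -/
theorem deep_iterate [CharP K p] {t : K} (ht : t ^ (p ^ h - 1) = Q.env.a h) {B : ℝ} (hB : 0 < B)
    (hBa : B < ‖Q.env.a h‖) {z : K} (hz : ‖z‖ ≤ B) :
    ∀ k, ‖t * Q.env.L^[k] z - (t * z) ^ (p ^ h) ^ k‖ < ‖t‖ * Q.env.mxs B k ∧
      ‖t‖ * Q.env.mxs B k = (‖t‖ * B) ^ (p ^ h) ^ k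
  | 0 => by
    have ht0 : t ≠ 0 := by
      rintro rfl
      rw [zero_pow (Nat.sub_ne_zero_of_lt (Nat.one_lt_pow (by have := Q.hh; omega)
        (Fact.out : p.Prime).one_lt))] at ht
      exact Q.env.a_h ht.symm
    simp [Env.mxs_zero, norm_pos_iff.2 ht0, hB, ht0]
  | k + 1 => by
    obtain ⟨h1, h2⟩ := deep_iterate ht hB hBa hz k
    set Bk := Q.env.mxs B k
    have hBk : 0 < Bk := Q.env.mxs_pos hB k
    have hB1 : B < 1 := hBa.trans_le (Q.env.norm_a_le Q.env.h_mem)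
    have hBka : Bk < ‖Q.env.a h‖ :=
      (Q.env.mxs_antitone hB hB1 (Nat.zero_le k)).trans_lt hBa
    obtain ⟨h3, -, h5⟩ := Q.env.deep hBk hBka
    have htP : t * Q.env.a h = t ^ p ^ h := by
      rw [← ht, ← pow_succ', Nat.sub_add_cancel (Nat.one_le_pow _ _ (Fact.out : p.Prime).pos)]
    have hnorm : ‖t‖ * Q.env.mx Bk = (‖t‖ * Bk) ^ p ^ h := by
      rw [h5, mul_pow, ← norm_pow t, ← htP, norm_mul, mul_assoc]; rfl
    have ht0 : 0 < ‖t‖ := by
      rcases (norm_nonneg t).lt_or_eq with h0 | h0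
      · exact h0
      · rw [← h0, zero_mul] at h1; exact absurd h1 (not_lt.2 (norm_nonneg _))
    rw [Function.iterate_succ_apply', Q.env.mxs_succ, pow_succ ((p ^ h)), pow_mul, pow_mul,
      hnorm, ← h2]
    refine ⟨?_, rfl⟩
    set y := Q.env.L^[k] z
    have hy : ‖y‖ ≤ Bk := Q.norm_iterate_L_le hz k
    set rest := ∑ i ∈ Q.env.S.erase h, Q.env.a i * y ^ p ^ i
    have hL : Q.env.L y = Q.env.a h * y ^ p ^ h + rest :=
      (add_sum_erase _ (fun i => Q.env.a i * y ^ p ^ i) Q.env.h_mem).symm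
    have hrest : ‖rest‖ < Q.env.mx Bk := norm_sum_lt _ _ (Q.env.mx_pos hBk) fun i hi => by
      refine lt_of_le_of_lt ?_ (Q.env.W_lt_of_not_between (mem_of_mem_erase hi) (Or.inl ?_))
      · rw [norm_mul, norm_pow]
        exact mul_le_mul_of_nonneg_left (pow_le_pow_left₀ (norm_nonneg _) hy _) (norm_nonneg _)
      · rw [h3]
        exact lt_of_le_of_ne (Q.env.mem_S.1 (mem_of_mem_erase hi)).1 (Ne.symm (ne_of_mem_erase hi))
    rw [hL, show t * (Q.env.a h * y ^ p ^ h + rest) - ((t * z) ^ (p ^ h) ^ k) ^ p ^ h =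
      (t * y - (t * z) ^ (p ^ h) ^ k) ^ p ^ h + t * rest by
      rw [sub_pow_char_pow, mul_add, ← mul_assoc, htP, mul_pow]; ring]
    refine lt_of_le_of_lt (IsUltrametricDist.norm_add_le_max _ _) (max_lt ?_ ?_)
    · rw [norm_pow]
      exact pow_lt_pow_left₀ h1 (norm_nonneg _) (pow_ne_zero _ (Fact.out : p.Prime).ne_zero)
    · rw [norm_mul, ← hnorm]
      exact mul_lt_mul_of_pos_left hrest ht0

end Pt

variable {F : FormalGroup (LT p n)} {hh : 1 ≤ h} {P : Ideal (LT p n)}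
  {G : GoodPoint p n F h hh P e K}

theorem coeff_one_facts {Q : Pt p n h e K} (hQ : Q.x = G.x) {τ : PowerSeries K}
    (hτ : IsUnipotentCoordinate G τ) :
    PowerSeries.coeff 1 τ ^ (p ^ h - 1) = Q.env.a h ∧ 0 < ‖PowerSeries.coeff 1 τ‖ ∧
      ‖PowerSeries.coeff 1 τ‖ ≤ 1 ∧ ‖Q.env.a h‖ ≤ ‖PowerSeries.coeff 1 τ‖ := by
  set t := PowerSeries.coeff 1 τ
  have hP : p ^ h - 1 ≠ 0 :=
    Nat.sub_ne_zero_of_lt (Nat.one_lt_pow (by omega) (Fact.out : p.Prime).one_lt)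
  have hta : t ^ (p ^ h - 1) = Q.env.a h := by
    show _ = Q.x (par p n h)
    rw [hQ]; exact hτ.2.2
  refine ⟨hta, norm_pos_iff.2 fun h0 => Q.env.a_h ?_, hτ.2.1 1, ?_⟩
  · exact hta.symm.trans (by rw [h0, zero_pow hP])
  · rw [← hta, norm_pow]
    exact pow_le_of_le_one (norm_nonneg _) (hτ.2.1 1) hP

/-- The leading term of a slot point in the coordinate. -/
theorem slot_lead [CompleteSpace K] [CharP K p] (T : Tower p n G) (Q : Pt p n h e K)
    (hQ : Q.x = G.x) {μ : ℝ} (hμ0 : 0 < μ) (hμ1 : μ < 1) (hdev : Q.Dev μ) {τ : PowerSeries K}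
    (hτ : IsUnipotentCoordinate G τ) (α : Res p n) (M : ℕ) (l : Fin (n - h)) (m : ℕ) {b : ℝ}
    (hb0 : 0 < b) (hb1 : b < 1) (hx : ‖T.pts m l‖ ≤ b)
    (hBa : Q.env.mxs (b ^ p ^ M) m < ‖Q.env.a h‖)
    (hμB : μ ^ (p ^ h) ^ m < Q.env.mxs (b ^ p ^ M) m) :
    ‖ev₁ τ (slotPt T α M l) -
        PowerSeries.coeff 1 τ * Q.env.L^[m] (resHom G.x α * T.pts m l ^ p ^ M)‖ <
      ‖PowerSeries.coeff 1 τ‖ * Q.env.mxs (b ^ p ^ M) m ∧
    ‖ev₁ τ (slotPt T α M l)‖ ≤ ‖PowerSeries.coeff 1 τ‖ * Q.env.mxs (b ^ p ^ M) m := by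
  obtain ⟨-, ht0, -, hat⟩ := coeff_one_facts hQ hτ
  set t := PowerSeries.coeff 1 τ
  rw [← constAt_eq]
  set z := constAt G.x α * T.pts m l ^ p ^ M
  have hB0 : 0 < b ^ p ^ M := pow_pos hb0 _
  have hB01 : b ^ p ^ M < 1 := pow_lt_one₀ hb0.le hb1 (pow_ne_zero _ (Fact.out : p.Prime).ne_zero)
  have hz : ‖z‖ ≤ b ^ p ^ M :=
    (norm_slot_input T Q hQ α M l m).1.trans (pow_le_pow_left₀ (norm_nonneg _) hx _)
  obtain ⟨h1, h2, h3⟩ := Q.iterate_lead hB0 hB01 hz m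
  set B := Q.env.mxs (b ^ p ^ M) m
  set π := slotPt T α M l
  have hlim := slot_tendsto T Q hQ hμ0 hμ1 hdev α M l m
  rw [slotSeq_eq T Q hQ] at hlim
  set s := (ev₁ Q.es)^[m] z
  set L := Q.env.L^[m] z
  have hd : ‖π - L‖ < B := by
    rw [show π - L = (π - s) + (s - L) by ring]
    exact lt_of_le_of_lt (IsUltrametricDist.norm_add_le_max _ _) (max_lt (hlim.trans_lt hμB) h1)
  have hπ : ‖π‖ ≤ B := by
    rw [show π = (π - L) + L by ring]
    exact (IsUltrametricDist.norm_add_le_max _ _).trans (max_le hd.le h3)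
  have hτB : ‖ev₁ τ π - t * π‖ < ‖t‖ * B := by
    refine lt_of_le_of_lt (norm_tau_sub_le hτ.1 hτ.2.1 (Q.env.mxs_lt_one hB0 hB01 m) hπ) ?_
    rw [sq]
    exact mul_lt_mul_of_pos_right (hBa.trans_le hat) (Q.env.mxs_pos hB0 m)
  constructor
  · rw [show ev₁ τ π - t * L = (ev₁ τ π - t * π) + t * (π - L) by ring]
    refine lt_of_le_of_lt (IsUltrametricDist.norm_add_le_max _ _) (max_lt hτB ?_)
    rw [norm_mul]
    exact mul_lt_mul_of_pos_left hd ht0
  · rw [show ev₁ τ π = (ev₁ τ π - t * π) + t * π by ring]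
    refine (IsUltrametricDist.norm_add_le_max _ _).trans (max_le hτB.le ?_)
    rw [norm_mul]
    exact mul_le_mul_of_nonneg_left hπ ht0.le

end Vale.Agent.P217.Newton
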