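import Vale.Agent.P217.Newton.Lead
import Vale.Agent.P217.Orbit.Points

/-!
P217, Newton half: the group of torsion points and the bound it gives on the parameters.
-/

open Finset

noncomputable section

namespace Vale.Agent.P217.Newton

variable {K : Type} [NormedField K] [IsUltrametricDist K] [CompleteSpace K]

theorem summable_coeff_mul_pow {c : ℕ → K} (hc : ∀ j, ‖c j‖ ≤ 1) {w : K} (hw : ‖w‖ < 1) :
    Summable fun j => c j * w ^ j := by
  refine Summable.of_norm_bounded (summable_geometric_of_lt_one (norm_nonneg w) hw) fun j => ?_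
  rw [norm_mul, norm_pow]
  exact mul_le_of_le_one_left (pow_nonneg (norm_nonneg _) _) (hc j)

theorem ev₁_eq_tsum (f : PowerSeries K) (w : K) :
    ev₁ f w = ∑' j, PowerSeries.coeff j f * w ^ j := by
  rw [ev₁, ev_eq_tsum]
  have hinj : Function.Injective (fun j : ℕ => Finsupp.single () j) := Finsupp.single_injective _
  rw [← hinj.tsum_eq fun d _ => ⟨d (), (Finsupp.unique_single d).symm⟩]
  refine tsum_congr fun j => ?_
  rw [evTerm, Finsupp.prod_single_index (h := fun _ k => w ^ k) (pow_zero _)]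
  rfl

/-- Division by a root. -/
theorem exists_div {f : PowerSeries K} (hf : IntegralSeries (f : PowerSeries K)) {w : K}
    (hw : ‖w‖ < 1) (h0 : ev₁ f w = 0) :
    ∃ s : PowerSeries K, IntegralSeries (s : PowerSeries K) ∧
      f = (PowerSeries.X - PowerSeries.C w) * s := by
  have hc : ∀ j, ‖PowerSeries.coeff j f‖ ≤ 1 := fun j => hf _
  let s : ℕ → K := fun k => ∑' j, PowerSeries.coeff (k + 1 + j) f * w ^ j
  have hsum : ∀ k, Summable fun j => PowerSeries.coeff (k + j) f * w ^ j :=
    fun k => summable_coeff_mul_pow (fun j => hc _) hw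
  refine ⟨PowerSeries.mk s, fun d => ?_, PowerSeries.ext fun k => ?_⟩
  · rw [← PowerSeries.coeff_def (R := K) (s := d) rfl, PowerSeries.coeff_mk]
    refine norm_tsum_le_of_forall zero_le_one fun j => ?_
    rw [norm_mul, norm_pow]
    exact mul_le_one₀ (hc _) (pow_nonneg (norm_nonneg _) _) (pow_le_one₀ (norm_nonneg _) hw.le)
  · rw [sub_mul, map_sub, PowerSeries.coeff_C_mul, PowerSeries.coeff_mk]
    rcases k with _ | k
    · rw [PowerSeries.coeff_zero_X_mul, zero_sub]
      rw [ev₁_eq_tsum, (summable_coeff_mul_pow hc hw).tsum_eq_zero_add, pow_zero, mul_one] at h0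
      simp only [s, ← tsum_mul_left]
      rw [eq_neg_iff_add_eq_zero, ← h0]
      congr 1
      refine tsum_congr fun j => ?_
      rw [pow_succ, zero_add, add_comm 1 j]
      ring
    · rw [PowerSeries.coeff_succ_X_mul, PowerSeries.coeff_mk]
      simp only [s]
      rw [(hsum (k + 1)).tsum_eq_zero_add, pow_zero, mul_one, add_zero, ← tsum_mul_left,
        add_sub_assoc, left_eq_add, sub_eq_zero]
      refine tsum_congr fun j => ?_
      rw [pow_succ, show k + 1 + (j + 1) = k + 1 + 1 + j by omega]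
      ring

/-- Distinct roots of norm at most `R` bound the low coefficients. -/
theorem coeff_le_of_roots {R : ℝ} (hR : 0 ≤ R) (hR1 : R < 1) :
    ∀ (D : ℕ) (f : PowerSeries K), IntegralSeries (f : PowerSeries K) →
      ∀ S : Finset K, S.card = D → (∀ w ∈ S, ‖w‖ ≤ R ∧ ev₁ f w = 0) →
        ∀ j < D, ‖PowerSeries.coeff j f‖ ≤ R ^ (D - j)
  | 0 => fun _ _ _ _ _ j hj => absurd hj (Nat.not_lt_zero j)
  | D + 1 => by
    intro f hf S hS hroot j hj
    classical
    obtain ⟨w, hw⟩ : S.Nonempty := card_pos.1 (by omega)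
    obtain ⟨hwR, hw0⟩ := hroot w hw
    have hw1 : ‖w‖ < 1 := hwR.trans_lt hR1
    obtain ⟨s, hs, rfl⟩ := exists_div hf hw1 hw0
    have ih := coeff_le_of_roots hR hR1 D s hs (S.erase w)
      (by rw [card_erase_of_mem hw, hS]; rfl) fun v hv => by
        obtain ⟨hvR, hv0⟩ := hroot v (mem_of_mem_erase hv)
        refine ⟨hvR, ?_⟩
        have hz : ∀ _ : Unit, ‖v‖ < 1 := fun _ => hvR.trans_lt hR1
        have hlin : IntegralSeries
            ((PowerSeries.X - PowerSeries.C w : PowerSeries K) : MvPowerSeries Unit K) :=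
          IntegralSeries.sub (IntegralSeries.X ()) (IntegralSeries.of_C hw1.le)
        rw [ev₁, ev_mul (conv_of_integral hlin hz) (conv_of_integral hs hz), mul_eq_zero] at hv0
        refine hv0.resolve_left fun hcon => ne_of_mem_erase hv ?_
        have : ev (MvPowerSeries.X () - MvPowerSeries.C w : MvPowerSeries Unit K) (fun _ => v) =
            v - w := by
          rw [ev_sub (conv_X _ _) (conv_C _ _), ev_X, ev_C]
        exact sub_eq_zero.1 (this.symm.trans hcon)
    have hs1 : ∀ i, ‖PowerSeries.coeff i s‖ ≤ 1 := fun i => hs _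
    have hbound : ∀ i ≤ D, ‖PowerSeries.coeff i s‖ ≤ R ^ (D - i) := fun i hi => by
      rcases hi.lt_or_eq with hi | rfl
      · exact ih i hi
      · simpa using hs1 i
    have hwmul : ∀ i ≤ D, ‖w * PowerSeries.coeff i s‖ ≤ R ^ (D + 1 - i) := fun i hi => by
      rw [norm_mul, Nat.succ_sub hi, pow_succ']
      exact mul_le_mul hwR (hbound i hi) (norm_nonneg _) hR
    rw [sub_mul, map_sub, PowerSeries.coeff_C_mul]
    rcases j with _ | j
    · rw [PowerSeries.coeff_zero_X_mul, zero_sub, norm_neg]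
      exact hwmul 0 (Nat.zero_le _)
    · rw [PowerSeries.coeff_succ_X_mul, sub_eq_add_neg]
      refine (IsUltrametricDist.norm_add_le_max _ _).trans (max_le ?_ ?_)
      · rw [Nat.add_sub_add_right]
        exact hbound j (by omega)
      · rw [norm_neg]
        exact hwmul (j + 1) (by omega)

section Torsion

variable {p n : ℕ} [Fact p.Prime] {F : FormalGroup (LT p n)} {h : ℕ} {hh : 1 ≤ h}
  {P : Ideal (LT p n)} {e : PowerSeries (LT p n)}

/-- Homomorphisms of laws map to homomorphisms. -/
theorem isHom_map {R S : Type} [CommRing R] [CommRing S] (φ : R →+* S) {A B : FormalGroup R}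
    {f : PowerSeries R} (hf : IsHom A B f) : IsHom (A.map φ) (B.map φ) (PowerSeries.map φ f) := by
  obtain ⟨h0, h1⟩ := hf
  have h0' : PowerSeries.constantCoeff (PowerSeries.map φ f) = 0 := by
    rw [← PowerSeries.coeff_zero_eq_constantCoeff_apply, PowerSeries.coeff_map,
      PowerSeries.coeff_zero_eq_constantCoeff_apply, h0, map_zero]
  refine ⟨h0', ?_⟩
  have hA : PowerSeries.HasSubst A.toPowerSeries :=
    PowerSeries.HasSubst.of_constantCoeff_zero A.zero_constantCoeff
  have hc : ∀ i : Fin 2, (PowerSeries.subst (MvPowerSeries.X i) f :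
      MvPowerSeries (Fin 2) R).constantCoeff = 0 := fun i =>
    PowerSeries.constantCoeff_subst_eq_zero (MvPowerSeries.constantCoeff_X i) f h0
  have key := congrArg (MvPowerSeries.map φ) h1
  rw [PowerSeries.subst_def, MvPowerSeries.map_subst hA.const,
    MvPowerSeries.map_subst (Easy.hasSubst_pair (hc 0) (hc 1))] at key
  convert key using 1
  · rfl
  · congr 1
    funext i
    fin_cases i <;>
      simp [PowerSeries.subst_def, MvPowerSeries.map_subst (PowerSeries.HasSubst.X _).const,
        MvPowerSeries.map_X] <;> rfl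

variable (hF : IsUniversalLaw p n F) (he : IsPSeries p n e) (hfacts : FactsStatement p n)
  (hle : heightIdeal p n h ≤ P) (hu : par p n h ∉ P) (hchar : CharP K p) (hhn : h < n)
  (G : GoodPoint p n F h hh P e K)

include hF he hfacts hle hu hchar hhn in
/-- The point as used here. -/
theorem exists_pt : ∃ Q : Pt p n h e K, Q.x = G.x :=
  ⟨⟨G.x, hh, hhn, ((hfacts F hF).2 e he).2, hchar, G.norm_le, G.norm_lt,
    fun a ha => (G.ker_eq a).2 (hle ha), fun h0 => hu ((G.ker_eq _).1 h0)⟩, rfl⟩

theorem rho_lt_one : G.rho < 1 := by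
  obtain ⟨i, hi⟩ := G.rho_attained
  exact hi ▸ G.tor_small i

variable {G}

include hF he hfacts in
/-- The combinations of the torsion points form a group of `p ^ (n - h)` distinct roots. -/
theorem exists_torsion [hint : Fact (IntegralSeries (F.map G.x).toPowerSeries)] :
    ∃ ω : (Fin (n - h) → ℕ) → Vale.Agent.P217.Pt (F.map G.x),
      (∀ c i, ω (Pi.single i c) = ⟨copies (lawAt p n F G.x) c (G.tor i), by
        rw [lawAt_eq_map, ← Vale.Agent.P217.Pt.val_nsmul c ⟨G.tor i, G.tor_small i⟩]
        exact (c • (⟨G.tor i, G.tor_small i⟩ : Vale.Agent.P217.Pt (F.map G.x))).small⟩) ∧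
      (∀ c d, ω (c + d) = ω c + ω d) ∧
      (∀ c, ‖(ω c).val‖ ≤ G.rho ∧ ev₁ (PowerSeries.map G.x e) (ω c).val = 0 ∧
        (ω c).val = combination (lawAt p n F G.x) c G.tor) ∧
      Function.Injective (fun c : Fin (n - h) → Fin p => (ω fun i => (c i).val).val) := by
  have := isComm_map (hfacts F hF).1 G.x
  set Γ := F.map G.x
  let z : Fin (n - h) → Vale.Agent.P217.Pt Γ := fun i => ⟨G.tor i, G.tor_small i⟩
  let ω : (Fin (n - h) → ℕ) → Vale.Agent.P217.Pt Γ := fun c => ∑ i, c i • z i
  have hcomb : ∀ c, (ω c).val = combination (lawAt p n F G.x) c G.tor := fun c =>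
    (Vale.Agent.P217.Pt.combination_eq_sum c z).symm
  have hρ1 := (rho_lt_one G).le
  have hp : ∀ i, p • z i = 0 := fun i => Vale.Agent.P217.Pt.ext (by
    rw [Vale.Agent.P217.Pt.val_nsmul, copies_p_eq hF he G.norm_le (G.tor_small i), G.tor_root i]
    rfl)
  have hadd : ∀ c d, ω (c + d) = ω c + ω d := fun c d => by
    simp only [ω, Pi.add_apply, add_nsmul, sum_add_distrib]
  have hes : IntegralSeries ((PowerSeries.map G.x e : PowerSeries K) : MvPowerSeries Unit K) :=
    IntegralSeries.map G.x G.norm_le e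
  let E : Vale.Agent.P217.Pt Γ →+ Vale.Agent.P217.Pt Γ :=
    Vale.Agent.P217.Pt.hom (PowerSeries.map G.x e) hes (isHom_map G.x ((hfacts F hF).2 e he).1)
  have hroot : ∀ c, E (ω c) = 0 := fun c => by
    simp only [ω, map_sum, map_nsmul]
    refine sum_eq_zero fun i _ => ?_
    rw [show E (z i) = 0 from Vale.Agent.P217.Pt.ext (G.tor_root i), nsmul_zero]
  have hsmall : ∀ c, ‖(ω c).val‖ ≤ G.rho := fun c => by
    have hn : ∀ (k : ℕ) i, ‖(k • z i).val‖ ≤ G.rho := by
      intro k i
      induction k with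
      | zero => simpa using G.rho_pos.le
      | succ k ih => rw [succ_nsmul]; exact Vale.Agent.P217.Pt.norm_val_add_le hρ1 ih (G.tor_le i)
    refine Finset.sum_induction _ (fun a : Vale.Agent.P217.Pt Γ => ‖a.val‖ ≤ G.rho)
      (fun a b ha hb => Vale.Agent.P217.Pt.norm_val_add_le hρ1 ha hb) ?_ fun i _ => hn (c i) i
    simpa using G.rho_pos.le
  refine ⟨ω, fun c i => Vale.Agent.P217.Pt.ext ?_, hadd,
    fun c => ⟨hsmall c, congrArg Vale.Agent.P217.Pt.val (hroot c), hcomb c⟩, ?_⟩
  · show (∑ j, (Pi.single i c : Fin (n - h) → ℕ) j • z j).val = copies (lawAt p n F G.x) c (G.tor i)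
    rw [sum_eq_single i (fun j _ hne => by rw [Pi.single_eq_of_ne hne, zero_nsmul])
      (fun hi => absurd (mem_univ i) hi), Pi.single_eq_same, Vale.Agent.P217.Pt.val_nsmul]
    rfl
  · intro a b hab
    have hab' : ω (fun i => (a i).val) = ω (fun i => (b i).val) := Vale.Agent.P217.Pt.ext hab
    -- add the complement of `b`
    have hzero : ω (fun i => (a i).val + (p - (b i).val)) = 0 := by
      have h1 : ω (fun i => (a i).val + (p - (b i).val)) =
          ω (fun i => (a i).val) + ω (fun i => p - (b i).val) := hadd _ _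
      rw [h1, hab', ← hadd]
      simp only [ω, Pi.add_apply]
      refine sum_eq_zero fun i _ => ?_
      rw [Nat.add_sub_cancel' (b i).isLt.le, hp]
    have hind := G.tor_indep _ ((hcomb _).symm.trans (congrArg Vale.Agent.P217.Pt.val hzero))
    funext i
    obtain ⟨t, ht⟩ := hind i
    have h1 := (a i).isLt
    have h2 := (b i).isLt
    refine Fin.ext ?_
    rcases t with _ | _ | t
    · omega
    · omega
    · have : p * 2 ≤ p * (t + 1 + 1) := Nat.mul_le_mul_left _ (by omega)
      omega

include hF he hfacts hle hu hchar hhn in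
/-- The bound of the parameters by the torsion radius. -/
theorem bounded {Q : Pt p n h e K} (hQ : Q.x = G.x) : Q.env.Bounded G.rho := by
  classical
  have := hchar
  have : Fact (IntegralSeries (F.map G.x).toPowerSeries) := ⟨integral_lawAt G.norm_le⟩
  have hρ := G.rho_pos
  have hρ1 := rho_lt_one G
  set q := p ^ n
  set Pp := p ^ h
  set N := p ^ (n - h)
  have hPN : Pp * N = q := by rw [← pow_add, Nat.add_sub_cancel' hhn.le]
  obtain ⟨ω, -, -, hω, hinj⟩ := exists_torsion (G := G) hF he hfacts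
  let g : PowerSeries K := PowerSeries.mk fun j => PowerSeries.coeff (Pp * j) Q.es
  have hvanish : ∀ b, ¬ Pp ∣ b → PowerSeries.coeff b Q.es = 0 := fun b hb => by
    rw [Q.coeff_es]
    exact Q.x_low _ (Q.facts.frobenius h hhn.le b hb)
  have hgi : IntegralSeries (g : PowerSeries K) := fun d => by
    rw [← PowerSeries.coeff_def (R := K) (s := d) rfl, PowerSeries.coeff_mk]
    exact Q.es_integral _
  have hev : ∀ z : K, ev₁ g (z ^ Pp) = ev₁ Q.es z := fun z => by
    have hinjm : Function.Injective (fun j : ℕ => Pp * j) :=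
      mul_right_injective₀ (pow_ne_zero _ (Fact.out : p.Prime).ne_zero)
    have hsupp : Function.support (fun b => PowerSeries.coeff b Q.es * z ^ b) ⊆
        Set.range (fun j : ℕ => Pp * j) := by
      intro b hb
      by_contra hr
      exact hb (show PowerSeries.coeff b Q.es * z ^ b = 0 by
        rw [hvanish b fun ⟨j, hj⟩ => hr ⟨j, hj.symm⟩, zero_mul])
    rw [ev₁_eq_tsum g, ev₁_eq_tsum Q.es, ← hinjm.tsum_eq hsupp]
    exact tsum_congr fun j => by rw [PowerSeries.coeff_mk, pow_mul]
  let S : Finset K := univ.image fun c : Fin (n - h) → Fin p => (ω fun i => (c i).val).val ^ Pp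
  have hScard : S.card = N := by
    rw [card_image_of_injective, card_univ, Fintype.card_fun, Fintype.card_fin, Fintype.card_fin]
    intro a b hab
    exact hinj (iterateFrobenius_inj K p h (by simpa only [iterateFrobenius_def] using hab))
  have hcoef : ∀ j < N, ‖PowerSeries.coeff (Pp * j) Q.es‖ ≤ G.rho ^ (q - Pp * j) := by
    intro j hj
    have := coeff_le_of_roots (R := G.rho ^ Pp) (pow_nonneg hρ.le _)
      (pow_lt_one₀ hρ.le hρ1 (pow_ne_zero _ (Fact.out : p.Prime).ne_zero)) N g hgi S hScard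
      (fun w hw => by
        obtain ⟨c, -, rfl⟩ := mem_image.1 hw
        obtain ⟨h1, h2, -⟩ := hω fun i => (c i).val
        refine ⟨by rw [norm_pow]; exact pow_le_pow_left₀ (norm_nonneg _) h1 _, ?_⟩
        rw [hev, Pt.es, hQ]
        exact h2) j hj
    rw [PowerSeries.coeff_mk, ← pow_mul, Nat.mul_sub, hPN] at this
    exact this
  -- the envelope at the radius
  set E := Q.env
  have hmx : E.mx G.rho = G.rho ^ q := by
    refine le_antisymm ?_ (E.pow_le_mx G.rho)
    by_contra hlt
    rw [not_le] at hlt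
    have hi := E.imax_mem G.rho
    have hW : ‖E.a (E.imax G.rho)‖ * G.rho ^ p ^ E.imax G.rho = E.mx G.rho := E.W_imax G.rho
    obtain ⟨hl, hu'⟩ := E.mem_S.1 hi
    have hin : E.imax G.rho < n := by
      rcases hu'.lt_or_eq with h' | h'
      · exact h'
      · rw [h', E.a_n, norm_one, one_mul] at hW
        exact absurd hW hlt.ne
    set i := E.imax G.rho
    have hdiff := Q.coeff_sub_main hρ hρ1 (p ^ i)
    rw [Q.main_pow hi] at hdiff
    have hb : Pp * p ^ (i - h) = p ^ i := by
      rw [← pow_add, Nat.add_sub_cancel' (show h ≤ i from hl)]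
    have hc := hcoef (p ^ (i - h)) (Nat.pow_lt_pow_right (Fact.out : p.Prime).one_lt (by
      have : h ≤ i := hl
      omega))
    rw [hb, Q.coeff_es] at hc
    set x := Q.x (PowerSeries.coeff (p ^ i) e)
    have hxq : ‖x‖ * G.rho ^ p ^ i ≤ G.rho ^ q := by
      refine (mul_le_mul_of_nonneg_right hc (pow_nonneg hρ.le _)).trans_eq ?_
      rw [← pow_add, Nat.sub_add_cancel (Nat.pow_le_pow_right (Fact.out : p.Prime).pos hin.le)]
    have hη : max G.rho (E.mx G.rho / G.rho) < 1 :=
      max_lt hρ1 ((div_lt_one hρ).2 (E.mx_lt_self hρ hρ1))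
    have hlt1 : ‖x - E.a i‖ * G.rho ^ p ^ i < E.mx G.rho :=
      lt_of_le_of_lt hdiff (mul_lt_of_lt_one_left (E.mx_pos hρ) hη)
    have hlt2 : ‖x‖ * G.rho ^ p ^ i < E.mx G.rho := lt_of_le_of_lt hxq hlt
    have : ‖E.a i‖ * G.rho ^ p ^ i < E.mx G.rho := by
      refine lt_of_le_of_lt (mul_le_mul_of_nonneg_right (?_ : ‖E.a i‖ ≤ max ‖x - E.a i‖ ‖x‖)
        (pow_nonneg hρ.le _)) ?_
      · rw [show E.a i = -(x - E.a i) + x by ring]
        refine (IsUltrametricDist.norm_add_le_max _ _).trans ?_
        rw [norm_neg, show -(x - E.a i) + x = E.a i by ring]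
      · rw [max_mul_of_nonneg _ _ (pow_nonneg hρ.le _)]
        exact max_lt hlt1 hlt2
    exact absurd hW this.ne
  refine ⟨hρ, hρ1, fun i hl hin => ?_⟩
  have h1 := E.W_le_mx G.rho (E.mem_S.2 ⟨hl, hin.le⟩)
  rw [hmx, Env.W] at h1
  have hpi : E.p ^ i ≤ q := Nat.pow_le_pow_right (Fact.out : p.Prime).pos hin.le
  rw [← Nat.sub_add_cancel hpi, pow_add] at h1
  exact le_of_mul_le_mul_right h1 (pow_pos hρ _)

end Torsion

end Vale.Agent.P217.Newton
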