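import Vale.Agent.P217.Newton.Roots
import Vale.Agent.P217.EvalRoots

/-!
P217, Newton half: towers of preimages of least norm.
-/

open Finset

noncomputable section

namespace Vale.Agent.P217.Newton

variable {K : Type} [NormedField K] [IsUltrametricDist K] [CompleteSpace K]

/-- The law is the sum up to second order. -/
theorem norm_fadd_sub_le {G : FormalGroup K} (hG : IntegralSeries G.toPowerSeries) {a b : K}
    {ρ : ℝ} (hρ1 : ρ < 1) (ha : ‖a‖ ≤ ρ) (hb : ‖b‖ ≤ ρ) :
    ‖ev G.toPowerSeries ![a, b] - (a + b)‖ ≤ ρ ^ 2 := by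
  classical
  have hz : ∀ i, ‖(![a, b] : Fin 2 → K) i‖ < 1 :=
    Fin.forall_fin_two.2 ⟨ha.trans_lt hρ1, hb.trans_lt hρ1⟩
  have hL : IntegralSeries (MvPowerSeries.X 0 + MvPowerSeries.X 1 : MvPowerSeries (Fin 2) K) :=
    (IntegralSeries.X 0).add (IntegralSeries.X 1)
  have hev : ev (MvPowerSeries.X 0 + MvPowerSeries.X 1 : MvPowerSeries (Fin 2) K) ![a, b] = a + b := by
    rw [ev_add (conv_X 0 _) (conv_X 1 _), ev_X, ev_X]
    simp
  rw [← hev, ← ev_sub (conv_of_integral hG hz) (conv_of_integral hL hz)]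
  refine norm_ev_le_pow (hG.sub hL) (fun d hd => ?_) ((norm_nonneg a).trans ha) hρ1.le
    (Fin.forall_fin_two.2 ⟨ha, hb⟩)
  have hsum : d 0 + d 1 ≤ 1 := by
    rw [Finsupp.degree_eq_sum, Fin.sum_univ_two] at hd
    omega
  rcases (show d 0 = 0 ∧ d 1 = 0 ∨ d 0 = 1 ∧ d 1 = 0 ∨ d 0 = 0 ∧ d 1 = 1 by omega) with h | h | h
  · have : d = 0 := Finsupp.ext (Fin.forall_fin_two.2 ⟨h.1, h.2⟩)
    subst this
    simp [G.zero_constantCoeff]
  · have : d = Finsupp.single 0 1 :=
      Finsupp.ext (Fin.forall_fin_two.2 ⟨by simp [h.1], by simp [h.2]⟩)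
    subst this
    rw [map_sub, map_add, G.lin_coeff_X, MvPowerSeries.coeff_X, MvPowerSeries.coeff_X, if_pos rfl,
      if_neg (by simp [Finsupp.single_left_inj]), add_zero, sub_self]
  · have : d = Finsupp.single 1 1 :=
      Finsupp.ext (Fin.forall_fin_two.2 ⟨by simp [h.1], by simp [h.2]⟩)
    subst this
    rw [map_sub, map_add, G.lin_coeff_Y, MvPowerSeries.coeff_X, MvPowerSeries.coeff_X,
      if_neg (by simp [Finsupp.single_left_inj]), if_pos rfl, zero_add, sub_self]

/-- The value of a sum of points is the sum of the values up to second order. -/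
theorem norm_val_sum_sub_le {G : FormalGroup K} [hG : Fact (IntegralSeries G.toPowerSeries)]
    [G.IsComm] {ι : Type} (s : Finset ι) (y : ι → Vale.Agent.P217.Pt G) {ρ : ℝ} (hρ0 : 0 ≤ ρ)
    (hρ1 : ρ < 1) (hy : ∀ i ∈ s, ‖(y i).val‖ ≤ ρ) :
    ‖(∑ i ∈ s, y i).val‖ ≤ ρ ∧ ‖(∑ i ∈ s, y i).val - ∑ i ∈ s, (y i).val‖ ≤ ρ ^ 2 := by
  classical
  induction s using Finset.induction_on with
  | empty => simp [hρ0, pow_nonneg hρ0]
  | @insert a s ha ih =>
    obtain ⟨h1, h2⟩ := ih fun i hi => hy i (mem_insert_of_mem hi)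
    have hya := hy a (mem_insert_self a s)
    rw [sum_insert ha, sum_insert ha]
    refine ⟨Vale.Agent.P217.Pt.norm_val_add_le hρ1.le hya h1, ?_⟩
    rw [Vale.Agent.P217.Pt.val_add]
    have h3 := norm_fadd_sub_le hG.out hρ1 hya h1
    rw [show ev G.toPowerSeries ![(y a).val, (∑ i ∈ s, y i).val] - ((y a).val + ∑ i ∈ s, (y i).val) =
      (ev G.toPowerSeries ![(y a).val, (∑ i ∈ s, y i).val] - ((y a).val + (∑ i ∈ s, y i).val)) +
        ((∑ i ∈ s, y i).val - ∑ i ∈ s, (y i).val) by ring]
    exact (IsUltrametricDist.norm_add_le_max _ _).trans (max_le h3 h2)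

theorem norm_combination_sub_le {G : FormalGroup K} [hG : Fact (IntegralSeries G.toPowerSeries)]
    [G.IsComm] {r : ℕ} (c : Fin r → ℕ) (z : Fin r → K) {ρ : ℝ} (hρ0 : 0 ≤ ρ) (hρ1 : ρ < 1)
    (hz : ∀ i, ‖z i‖ ≤ ρ) :
    ‖combination G.toPowerSeries c z - ∑ i, (c i : K) * z i‖ ≤ ρ ^ 2 := by
  let Z : Fin r → Vale.Agent.P217.Pt G := fun i => ⟨z i, (hz i).trans_lt hρ1⟩
  have hrep : ∀ i, ‖(c i • Z i).val‖ ≤ ρ ∧ ‖(c i • Z i).val - (c i : K) * z i‖ ≤ ρ ^ 2 := by
    intro i
    have := norm_val_sum_sub_le (G := G) (range (c i)) (fun _ => Z i) hρ0 hρ1 fun _ _ => hz i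
    simpa [sum_const, card_range] using this
  rw [show combination G.toPowerSeries c z = (∑ i, c i • Z i).val from
    Vale.Agent.P217.Pt.combination_eq_sum c Z]
  rw [show (∑ i, c i • Z i).val - ∑ i, (c i : K) * z i =
    ((∑ i, c i • Z i).val - ∑ i, (c i • Z i).val) + ∑ i, ((c i • Z i).val - (c i : K) * z i) by
    rw [sum_sub_distrib]; ring]
  exact (IsUltrametricDist.norm_add_le_max _ _).trans (max_le
    (norm_val_sum_sub_le univ (fun i => c i • Z i) hρ0 hρ1 fun i _ => (hrep i).1).2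
    (norm_sum_le _ _ (pow_nonneg hρ0 2) fun i _ => (hrep i).2))

omit [IsUltrametricDist K] [CompleteSpace K] in
/-- The fixed points of Frobenius are the prime field. -/
theorem exists_natCast_of_pow_eq {p : ℕ} [hp : Fact p.Prime] [CharP K p] {γ : K}
    (h : γ ^ p = γ) : ∃ k : ℕ, γ = (k : K) := by
  classical
  let f : Polynomial K := Polynomial.X ^ p - Polynomial.X
  have hf : f ≠ 0 := FiniteField.X_pow_card_sub_X_ne_zero K hp.out.one_lt
  have hdeg : f.natDegree = p := FiniteField.X_pow_card_sub_X_natDegree_eq K hp.out.one_lt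
  let S : Finset K := (range p).image fun k : ℕ => (k : K)
  have hS : S.card = p := by
    rw [card_image_of_injOn, card_range]
    intro a ha b hb hab
    exact ((CharP.natCast_eq_natCast K p).1 hab).eq_of_lt_of_lt (mem_range.1 ha) (mem_range.1 hb)
  have hsub : S ⊆ f.roots.toFinset := by
    intro y hy
    obtain ⟨k, -, rfl⟩ := mem_image.1 hy
    rw [Multiset.mem_toFinset, Polynomial.mem_roots hf]
    have : (k : K) ^ p = (k : K) := by
      rw [← map_natCast (ZMod.castHom (dvd_refl p) K) k, ← map_pow, ZMod.pow_card]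
    simp [f, this]
  have heq : S = f.roots.toFinset := eq_of_subset_of_card_le hsub
    (le_trans (Multiset.toFinset_card_le _) (hS ▸ hdeg ▸ Polynomial.card_roots' f))
  have hγ : γ ∈ S := by
    rw [heq, Multiset.mem_toFinset, Polynomial.mem_roots hf]
    simp [f, h]
  obtain ⟨k, -, rfl⟩ := mem_image.1 hγ
  exact ⟨k, rfl⟩

variable {p n : ℕ} [Fact p.Prime] {F : FormalGroup (LT p n)} {h : ℕ} {hh : 1 ≤ h}
  {P : Ideal (LT p n)} {e : PowerSeries (LT p n)}

namespace Pt

theorem rootShape (Q : Pt p n h e K) : RootShape Q.es (p ^ n) := by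
  refine ⟨Q.es_integral, fun b hb => ?_, ?_⟩
  · rw [Q.coeff_es]
    refine Q.norm_lt _ ((IsLocalRing.mem_maximalIdeal _).2 fun hu => ?_)
    refine (hu.map (red p n)).ne_zero ?_
    have := congrArg (PowerSeries.coeff b) Q.facts.special
    rwa [PowerSeries.coeff_map, PowerSeries.coeff_X_pow, if_neg hb.ne] at this
  · rw [Q.coeff_es]
    have hm : PowerSeries.coeff (p ^ n) e - 1 ∈ IsLocalRing.maximalIdeal (LT p n) := by
      refine (IsLocalRing.mem_maximalIdeal _).2 fun hu => (hu.map (red p n)).ne_zero ?_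
      have := congrArg (PowerSeries.coeff (p ^ n)) Q.facts.special
      rw [PowerSeries.coeff_map, PowerSeries.coeff_X_pow, if_pos rfl] at this
      rw [map_sub, map_one, this, sub_self]
    have hlt := Q.norm_lt _ hm
    rw [map_sub, map_one] at hlt
    rw [show Q.x (PowerSeries.coeff (p ^ n) e) = (Q.x (PowerSeries.coeff (p ^ n) e) - 1) + 1 by ring,
      IsUltrametricDist.norm_add_eq_max_of_norm_ne_norm (by rw [norm_one]; exact hlt.ne), norm_one,
      max_eq_right hlt.le]

end Pt

/-- The minimality that the extra coordinate of the tower has at the radius. -/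
def ExtraFree {G : GoodPoint p n F h hh P e K} (T : Tower p n G) : Prop :=
  ∀ j, ‖T.pts (j + 1) G.extra‖ = G.rho → ∀ γ : Fin (n - h) → K, (∀ i, γ i ^ p = γ i) →
    ¬ ‖T.pts (j + 1) G.extra + ∑ i ∈ G.good, γ i * G.tor i‖ < G.rho

/-- Towers of preimages of least norm exist. -/
theorem exists_tower [IsAlgClosed K] (hF : IsUniversalLaw p n F) (he : IsPSeries p n e)
    (hfacts : FactsStatement p n) (hchar : CharP K p) (G : GoodPoint p n F h hh P e K)
    (Q : Pt p n h e K) (hQ : Q.x = G.x) : ∃ T : Tower p n G, ExtraFree T := by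
  classical
  have := hchar
  have : Fact (IntegralSeries (F.map G.x).toPowerSeries) := ⟨integral_lawAt G.norm_le⟩
  have := isComm_map (hfacts F hF).1 G.x
  have hρ := G.rho_pos
  have hρ1 := rho_lt_one G
  obtain ⟨ω, -, hadd, hω, -⟩ := exists_torsion (G := G) hF he hfacts
  have hes : IntegralSeries ((PowerSeries.map G.x e : PowerSeries K) : MvPowerSeries Unit K) :=
    IntegralSeries.map G.x G.norm_le e
  let E : Vale.Agent.P217.Pt (F.map G.x) →+ Vale.Agent.P217.Pt (F.map G.x) :=
    Vale.Agent.P217.Pt.hom (PowerSeries.map G.x e) hes (isHom_map G.x ((hfacts F hF).2 e he).1)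
  have hω0 : ω 0 = 0 := by
    have := hadd 0 0
    rw [add_zero] at this
    simpa using this.symm
  have hωp : ∀ c, ω (p • c) = 0 := by
    intro c
    have hmul : ∀ k : ℕ, ω (k • c) = k • ω c := by
      intro k
      induction k with
      | zero => simp [hω0]
      | succ k ih => rw [succ_nsmul, succ_nsmul, hadd, ih]
    rw [hmul]
    refine Vale.Agent.P217.Pt.ext ?_
    rw [Vale.Agent.P217.Pt.val_nsmul, copies_p_eq hF he G.norm_le (ω c).small, (hω c).2.1]
    rfl
  have hred : ∀ c : Fin (n - h) → ℕ, ω c = ω fun i => c i % p := by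
    intro c
    conv_lhs => rw [show c = (fun i => c i % p) + p • (fun i => c i / p) from
      funext fun i => by simp [Nat.mod_add_div]]
    rw [hadd, hωp, add_zero]
  have key : ∀ a : K, ‖a‖ < 1 → ∃ z : K, ‖z‖ < 1 ∧ ev₁ (PowerSeries.map G.x e) z = a ∧
      (‖z‖ = G.rho → ∀ γ : Fin (n - h) → K, (∀ i, γ i ^ p = γ i) →
        ¬ ‖z + ∑ i ∈ G.good, γ i * G.tor i‖ < G.rho) := by
    intro a ha
    obtain ⟨z₀, hz₀, -, hz₀a⟩ := Q.rootShape.exists_preimage (pow_ne_zero _ (Fact.out : p.Prime).ne_zero) ha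
    rw [Pt.es, hQ] at hz₀a
    let Z₀ : Vale.Agent.P217.Pt (F.map G.x) := ⟨z₀, hz₀⟩
    let cand : Finset K :=
      univ.image fun c : Fin (n - h) → Fin p => (Z₀ + ω fun i => (c i).val).val
    have hmem : ∀ c : Fin (n - h) → ℕ, (Z₀ + ω c).val ∈ cand := fun c => mem_image.2
      ⟨fun i => ⟨c i % p, Nat.mod_lt _ (Fact.out : p.Prime).pos⟩, mem_univ _, by rw [hred c]⟩
    obtain ⟨z, hz, hmin⟩ := cand.exists_min_image (fun z => ‖z‖) ⟨_, hmem 0⟩
    obtain ⟨c, -, rfl⟩ := mem_image.1 hz
    set cc : Fin (n - h) → ℕ := fun i => (c i).val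
    refine ⟨(Z₀ + ω cc).val, (Z₀ + ω cc).small, ?_, ?_⟩
    · have h2 : E (ω cc) = 0 := Vale.Agent.P217.Pt.ext (hω cc).2.1
      have h1 := map_add E Z₀ (ω cc)
      rw [h2, add_zero] at h1
      exact (congrArg Vale.Agent.P217.Pt.val h1).trans hz₀a
    · intro hzr γ hγ hlt
      choose k hk using fun i => exists_natCast_of_pow_eq (K := K) (hγ i)
      set d : Fin (n - h) → ℕ := fun i => if i ∈ G.good then k i else 0 with hd
      have hle := hmin _ (hmem (cc + d))
      rw [hadd, ← add_assoc] at hle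
      have hzz : ‖(Z₀ + ω cc).val‖ ≤ G.rho := hzr.le
      have e1 := norm_fadd_sub_le (G := F.map G.x) (integral_lawAt G.norm_le) hρ1 hzz (hω d).1
      have e2 := norm_combination_sub_le (G := F.map G.x) d G.tor hρ.le hρ1 G.tor_le
      rw [← lawAt_eq_map, ← (hω d).2.2] at e2
      have hsum : ∑ i, (d i : K) * G.tor i = ∑ i ∈ G.good, γ i * G.tor i := by
        simp only [hd, Nat.cast_ite, Nat.cast_zero, ite_mul, zero_mul, sum_ite_mem, univ_inter, ← hk]
      rw [hsum] at e2
      have hsq : G.rho ^ 2 < G.rho := by nlinarith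
      have : ‖(Z₀ + ω cc + ω d).val‖ < G.rho := by
        rw [Vale.Agent.P217.Pt.val_add (Z₀ + ω cc) (ω d),
          show ev (F.map G.x).toPowerSeries ![(Z₀ + ω cc).val, (ω d).val] =
            (ev (F.map G.x).toPowerSeries ![(Z₀ + ω cc).val, (ω d).val] -
              ((Z₀ + ω cc).val + (ω d).val)) + (((ω d).val - ∑ i ∈ G.good, γ i * G.tor i) +
              ((Z₀ + ω cc).val + ∑ i ∈ G.good, γ i * G.tor i)) by ring]
        exact lt_of_le_of_lt (IsUltrametricDist.norm_add_le_max _ _) (max_lt (e1.trans_lt hsq)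
          (lt_of_le_of_lt (IsUltrametricDist.norm_add_le_max _ _) (max_lt (e2.trans_lt hsq) hlt)))
      exact absurd (hle.trans_lt this) (not_lt.2 hzr.ge)
  choose next hnext1 hnext2 hnext3 using key
  let step : {a : K // ‖a‖ < 1} → {a : K // ‖a‖ < 1} := fun a => ⟨next a.1 a.2, hnext1 a.1 a.2⟩
  let up : ℕ → Fin (n - h) → {a : K // ‖a‖ < 1} := fun k l =>
    Nat.rec ⟨G.tor l, G.tor_small l⟩ (fun _ a => step a) k
  let T : Tower p n G :=
    { pts := fun k l => match k with
        | 0 => 0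
        | k + 1 => (up k l).1
      pts_zero := fun l => rfl
      pts_one := fun l => rfl
      small := fun k l => by
        cases k with
        | zero => simp
        | succ k => exact (up k l).2
      step := fun k l => by
        cases k with
        | zero => exact G.tor_root l
        | succ k => exact hnext2 _ (up k l).2 }
  refine ⟨T, fun j hj γ hγ hlt => ?_⟩
  cases j with
  | zero =>
    change ‖G.tor G.extra‖ = G.rho at hj
    rcases G.extra_cond with hc | ⟨-, hc⟩
    · exact hc.ne hj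
    · have hg : ∑ i ∈ insert G.extra G.good, (Function.update γ G.extra 1) i * G.tor i =
          G.tor G.extra + ∑ i ∈ G.good, γ i * G.tor i := by
        rw [sum_insert G.extra_not_mem, Function.update_self, one_mul]
        congr 1
        exact sum_congr rfl fun i hi => by
          rw [Function.update_of_ne fun hie : i = G.extra => G.extra_not_mem (hie ▸ hi)]
      have := hc (Function.update γ G.extra 1) (fun i => by
        rcases eq_or_ne i G.extra with rfl | hne
        · simp
        · rw [Function.update_of_ne hne]; exact hγ i) (hg ▸ hlt) G.extra (mem_insert_self _ _)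
      simp at this
  | succ j => exact hnext3 _ (up j G.extra).2 hj γ hγ hlt

end Vale.Agent.P217.Newton
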